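import Vale.Agent.P370.H227.Shell

/-!
P370, block LC, part 3.  Explicit finite sums for the potential of a closed hydrogenic shell and of
the spherical average of the ring orbitals.
-/

namespace Vale.Agent.P370.H227

open MeasureTheory Set Real Filter Topology Polynomial
open scoped Nat
open Vale.Agent.P363.Stmt (R3)
open Vale.Agent.P370.H32 hiding Lp

noncomputable section

/-! ### `tl` is characterised by its equation -/

theorem tl_unique {κ : ℝ} (hκ : κ ≠ 0) {T Q : ℝ[X]} (h : C κ * T - derivative T = Q) :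
    T = tl κ Q := by
  have h2 := tl_eq hκ Q
  by_contra hne
  have hD : T - tl κ Q ≠ 0 := sub_ne_zero.2 hne
  have h3 : C κ * (T - tl κ Q) = derivative (T - tl κ Q) := by
    rw [derivative_sub]
    linear_combination h - h2
  have h4 : (C κ * (T - tl κ Q)).degree = (T - tl κ Q).degree := degree_C_mul hκ
  have h5 := degree_derivative_lt hD
  rw [← h3, h4] at h5
  exact lt_irrefl _ h5

theorem tl_add {κ : ℝ} (hκ : κ ≠ 0) (P Q : ℝ[X]) : tl κ (P + Q) = tl κ P + tl κ Q := by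
  refine (tl_unique hκ ?_).symm
  rw [derivative_add]
  linear_combination tl_eq hκ P + tl_eq hκ Q

theorem tl_C_mul {κ : ℝ} (hκ : κ ≠ 0) (c : ℝ) (Q : ℝ[X]) : tl κ (C c * Q) = C c * tl κ Q := by
  refine (tl_unique hκ ?_).symm
  rw [derivative_C_mul]
  linear_combination C c * tl_eq hκ Q

theorem tl_zero {κ : ℝ} (hκ : κ ≠ 0) : tl κ 0 = 0 := by
  refine (tl_unique hκ ?_).symm
  simp

theorem tl_neg {κ : ℝ} (hκ : κ ≠ 0) (Q : ℝ[X]) : tl κ (-Q) = -tl κ Q := by
  refine (tl_unique hκ ?_).symm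
  rw [derivative_neg]
  linear_combination - tl_eq hκ Q

theorem tl_sum {κ : ℝ} (hκ : κ ≠ 0) {ι : Type*} (s : Finset ι) (Q : ι → ℝ[X]) :
    tl κ (∑ i ∈ s, Q i) = ∑ i ∈ s, tl κ (Q i) := by
  classical
  induction s using Finset.induction_on with
  | empty => simp [tl_zero hκ]
  | insert i s hi ih => rw [Finset.sum_insert hi, Finset.sum_insert hi, tl_add hκ, ih]

/-! ### Monomials -/

/-- truncated exponential series -/
def ee (d : ℕ) (z : ℝ) : ℝ := ∑ b ∈ Finset.range (d + 1), z ^ b / b !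

/-- `H_d(z) = ∑_{b ≤ d} (d + 1 - b) z^b / b!` -/
def Hd (d : ℕ) (z : ℝ) : ℝ := ∑ b ∈ Finset.range (d + 1), ((d : ℝ) + 1 - b) * (z ^ b / b !)

theorem ee_succ (d : ℕ) (z : ℝ) : ee (d + 1) z = ee d z + z ^ (d + 1) / (d + 1)! := by
  rw [ee, Finset.sum_range_succ]
  rfl

theorem Hd_succ (d : ℕ) (z : ℝ) : Hd (d + 1) z = Hd d z + ee (d + 1) z := by
  rw [Hd, Hd, ee, Finset.sum_range_succ, Finset.sum_range_succ (fun b => z ^ b / (b ! : ℝ)),
    ← add_assoc, ← Finset.sum_add_distrib]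
  congr 1
  · refine Finset.sum_congr rfl fun b _ => ?_
    push_cast
    ring
  · push_cast
    ring

theorem Hd_zero_right (d : ℕ) : Hd d 0 = d + 1 := by
  rw [Hd, Finset.sum_range_succ']
  simp

theorem tl_pow_succ {κ : ℝ} (hκ : κ ≠ 0) (d : ℕ) :
    tl κ (X ^ (d + 1)) = C κ⁻¹ * (X ^ (d + 1) + C ((d : ℝ) + 1) * tl κ (X ^ d)) := by
  refine (tl_unique hκ ?_).symm
  have h := tl_eq hκ (X ^ d : ℝ[X])
  have hc : C κ * C κ⁻¹ = (1 : ℝ[X]) := by rw [← C_mul, mul_inv_cancel₀ hκ, C_1]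
  rw [derivative_C_mul, derivative_add, derivative_C_mul, derivative_X_pow]
  simp only [Nat.add_sub_cancel, Nat.cast_add, Nat.cast_one, map_add, map_natCast, map_one]
  linear_combination (C κ⁻¹ * ((d : ℝ[X]) + 1)) * h + (X ^ (d + 1)) * hc

theorem tl1_eval {n : ℕ} (hn : n ≠ 0) (d : ℕ) (w : ℝ) :
    (tl (1 / n) (X ^ d)).eval w = d ! * n ^ (d + 1) * ee d (w / n) := by
  have hn' : (n : ℝ) ≠ 0 := by exact_mod_cast hn
  have hκ : (1 / (n : ℝ)) ≠ 0 := by positivity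
  induction d with
  | zero =>
    have : tl (1 / (n : ℝ)) (X ^ 0) = C (n : ℝ) := by
      refine (tl_unique hκ ?_).symm
      rw [derivative_C, sub_zero, ← C_mul, one_div, inv_mul_cancel₀ hn']
      simp
    rw [this, ee]
    simp
  | succ d ih =>
    rw [tl_pow_succ hκ, eval_mul, eval_C, eval_add, eval_mul, eval_C, ih, ee_succ,
      Nat.factorial_succ]
    simp only [eval_pow, eval_X, one_div, inv_inv]
    push_cast
    have : ((d : ℝ) + 1) ≠ 0 := by positivity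
    have h2 : (d ! : ℝ) ≠ 0 := by positivity
    field_simp
    rw [div_pow]
    field_simp
    ring

theorem tl2_eval {n : ℕ} (hn : n ≠ 0) (d : ℕ) (w : ℝ) :
    (tl (1 / n) (tl (1 / n) (X ^ d))).eval w = d ! * n ^ (d + 2) * Hd d (w / n) := by
  have hn' : (n : ℝ) ≠ 0 := by exact_mod_cast hn
  have hκ : (1 / (n : ℝ)) ≠ 0 := by positivity
  induction d with
  | zero =>
    have h1 : tl (1 / (n : ℝ)) (X ^ 0) = C (n : ℝ) := by
      refine (tl_unique hκ ?_).symm
      rw [derivative_C, sub_zero, ← C_mul, one_div, inv_mul_cancel₀ hn']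
      simp
    have h2 : tl (1 / (n : ℝ)) (C (n : ℝ)) = C ((n : ℝ) ^ 2) := by
      refine (tl_unique hκ ?_).symm
      rw [derivative_C, sub_zero, ← C_mul]
      congr 1
      field_simp
    rw [h1, h2, Hd]
    simp
  | succ d ih =>
    rw [tl_pow_succ hκ, tl_C_mul hκ, tl_add hκ, tl_C_mul hκ, eval_mul, eval_C, eval_add, eval_mul,
      eval_C, ih, tl1_eval hn, Hd_succ, Nat.factorial_succ]
    simp only [one_div, inv_inv]
    push_cast
    ring

/-! ### The closed shell -/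

/-- coefficients, `i < j ≤ n` -/
def Gc (n i j : ℕ) : ℤ :=
  -((j : ℤ) - i) ^ 2 * (-1) ^ (i + j) * (n.choose i * n.choose j * (i + j).choose i)

/-- `G_n(z) = P_n(n z) / n²` -/
def Gn (n : ℕ) (z : ℝ) : ℝ :=
  ∑ j ∈ Finset.range (n + 1), ∑ i ∈ Finset.range j, (Gc n i j : ℝ) * Hd (i + j) z

theorem aQ_eq {n : ℕ} (hn : n ≠ 0) (i : ℕ) :
    aQ n i = (-1) ^ i * n.choose i / (i ! * (n : ℚ) ^ i) := by
  have hn' : (n : ℚ) ≠ 0 := by exact_mod_cast hn
  induction i with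
  | zero => simp [aQ]
  | succ i ih =>
    rw [aQ, ih, Nat.factorial_succ]
    have h := Nat.choose_succ_right_eq n i
    have h2 : (n.choose (i + 1) : ℚ) * (i + 1) = n.choose i * (n - i) := by
      rcases le_or_gt i n with hi | hi
      · have := congrArg (Nat.cast (R := ℚ)) h
        push_cast [Nat.cast_sub hi] at this
        exact this
      · rw [Nat.choose_eq_zero_of_lt hi, Nat.choose_eq_zero_of_lt (by omega)]
        simp
    have h3 : ((i : ℚ) + 1) ≠ 0 := by positivity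
    have h4 : (i ! : ℚ) ≠ 0 := by positivity
    have h5 : (n.choose (i + 1) : ℚ) = n.choose i * (n - i) / (i + 1) := by
      rw [eq_div_iff h3, h2]
    rw [h5]
    push_cast
    field_simp
    ring

theorem aQ_real {n : ℕ} (hn : n ≠ 0) (i : ℕ) :
    ((aQ n i : ℚ) : ℝ) = (-1) ^ i * n.choose i / (i ! * (n : ℝ) ^ i) := by
  rw [aQ_eq hn]
  push_cast
  rfl

theorem X_mul_Sn_sum {n : ℕ} (hn : n ≠ 0) :
    X * Sn n = -∑ j ∈ Finset.range (n + 1), ∑ i ∈ Finset.range j,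
      C (((j : ℝ) - i) ^ 2 * (((aQ n i : ℚ) : ℝ) * ((aQ n j : ℚ) : ℝ))) * X ^ (i + j) := by
  refine Polynomial.funext fun w => ?_
  have h1 : w * Ssym n w w = -∑ j ∈ Finset.range (n + 1), ∑ i ∈ Finset.range j,
      ((j : ℝ) - i) ^ 2 * (((aQ n i : ℚ) : ℝ) * ((aQ n j : ℚ) : ℝ)) * w ^ (i + j) := by
    rw [Ssym, mul_neg, Finset.mul_sum]
    congr 1
    refine Finset.sum_congr rfl fun j _ => ?_
    rw [Finset.mul_sum]
    refine Finset.sum_congr rfl fun i hi => ?_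
    have hij : i < j := Finset.mem_range.1 hi
    rw [hsym_self]
    have c1 : (((j - i - 1 : ℕ) : ℝ) + 1) = (j : ℝ) - i := by
      rw [Nat.cast_sub (by omega), Nat.cast_sub hij.le]; push_cast; ring
    rw [c1]
    have c2 : w * (w * w) ^ i * w ^ (j - i - 1) = w ^ (i + j) := by
      rw [← pow_two, ← pow_mul, ← pow_succ', ← pow_add]
      congr 1
      omega
    rw [← c2]
    ring
  rw [eval_mul, eval_X, ← mul_Ssym_self hn, h1]
  simp only [eval_neg, eval_finsetSum, eval_mul, eval_C, eval_pow, eval_X]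

theorem Pn_eval {n : ℕ} (hn : n ≠ 0) (w : ℝ) : (Pn n).eval w = n ^ 2 * Gn n (w / n) := by
  have hn' : (n : ℝ) ≠ 0 := by exact_mod_cast hn
  have hκ : (1 / (n : ℝ)) ≠ 0 := by positivity
  rw [Pn, X_mul_Sn_sum hn, tl_neg hκ, tl_neg hκ, tl_sum hκ, tl_sum hκ, eval_neg, eval_finsetSum,
    Gn, Finset.mul_sum, ← Finset.sum_neg_distrib]
  refine Finset.sum_congr rfl fun j _ => ?_
  rw [tl_sum hκ, tl_sum hκ, eval_finsetSum, Finset.mul_sum, ← Finset.sum_neg_distrib]
  refine Finset.sum_congr rfl fun i _ => ?_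
  rw [tl_C_mul hκ, tl_C_mul hκ, eval_mul, eval_C, tl2_eval hn, aQ_real hn, aQ_real hn, Gc]
  push_cast
  have h := Nat.add_choose_mul_factorial_mul_factorial i j
  have h2 : ((i + j)! : ℝ) = (i + j).choose i * i ! * j ! := by
    rw [← h, Nat.choose_symm_add]; push_cast; rfl
  have h3 : (i ! : ℝ) ≠ 0 := by positivity
  have h4 : (j ! : ℝ) ≠ 0 := by positivity
  rw [h2]
  field_simp
  rw [pow_add, pow_add (-1 : ℝ)]
  ring

theorem Gn_zero {n : ℕ} (hn : n ≠ 0) : Gn n 0 = A0 n := by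
  have hn' : (n : ℝ) ≠ 0 := by exact_mod_cast hn
  have h := Pn_eval hn 0
  rw [Pn_zero hn, zero_div] at h
  exact (mul_left_cancel₀ (pow_ne_zero 2 hn') h).symm

/-- the integer `A₀(n) = G_n(0)` -/
def GZ (n : ℕ) : ℤ := ∑ j ∈ Finset.range (n + 1), ∑ i ∈ Finset.range j, Gc n i j * (i + j + 1)

theorem Gn_zero_eq (n : ℕ) : Gn n 0 = GZ n := by
  rw [Gn, GZ]
  push_cast
  refine Finset.sum_congr rfl fun j _ => Finset.sum_congr rfl fun i _ => ?_
  rw [Hd_zero_right]
  push_cast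
  ring

theorem one_le_GZ {n : ℕ} (hn : n ≠ 0) : 1 ≤ GZ n := by
  have h := A0_pos hn
  rw [← Gn_zero hn, Gn_zero_eq] at h
  have : (0 : ℤ) < GZ n := by exact_mod_cast h
  omega

theorem potS_eq {n : ℕ} (hn : n ≠ 0) (r : ℝ) :
    potS n r = (n : ℝ) ^ 2 * (1 - Gn n (2 * r / n) / GZ n * exp (-(2 * r / n))) / r := by
  have hn' : (n : ℝ) ≠ 0 := by exact_mod_cast hn
  rw [potS, Pn_eval hn, Pn_eval hn, zero_div, Gn_zero_eq]
  rw [mul_div_mul_left _ _ (pow_ne_zero 2 hn')]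

end

end Vale.Agent.P370.H227
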