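import Vale.Agent.P370.H227.Ring
import Vale.Agent.P370.H32.HS
import Vale.Agent.P370.H405.C3Shell

/-!
P370, block LC, final form.  The closed shells in the field of the light nuclei:
`2 ∑_a ∫ φ_a²/‖x - y‖ = phiC n ‖y‖` for every orthonormal basis of the shells `< n`.
-/

namespace Vale.Agent.P370.H227

open MeasureTheory Set Real
open Vale.Agent.P363.H849
open Vale.Agent.P370.H624 (Shell Closed)
open Vale.Agent.P370.H405.C3 (vI int_pt)
open Vale.Agent.P370.H32 (shell_kernel KK)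

noncomputable section

theorem shell_pot {j : ℕ} {ι : Type*} [Fintype ι] [DecidableEq ι]
    (hcard : Fintype.card ι = (j + 1) ^ 2) (w : ι → H1) (hw : ∀ i, w i ∈ Shell j)
    (ho : ∀ i k, ip (w i) (w k) = if i = k then 1 else 0) {y : R3} (hy : y ≠ 0) :
    ∑ i, ∫ x, (w i).1.1 x ^ 2 / ‖x - y‖ = potS (j + 1) ‖y‖ := by
  rw [← integral_finsetSum _ fun i _ => (int_pt (w i) y).1,
    ← integral_KK_div (Nat.succ_ne_zero j) hy]
  refine integral_congr_ae (ae_of_all _ fun x => ?_)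
  simp only
  rw [← Finset.sum_div, norm_sub_rev, ← shell_kernel hcard w hw ho x x]
  congr 1
  refine Finset.sum_congr rfl fun i _ => ?_
  ring

/-- **Closed shells in the field of a point charge.** -/
theorem closed_pot (n : ℕ) (φ : Closed (n - 1) → H1) (hφ : ∀ a, φ a ∈ Shell a.1.1)
    (ho : ∀ a b, ip (φ a) (φ b) = if a = b then 1 else 0) {y : R3} (hy : y ≠ 0) :
    2 * ∑ a, ∫ x, (φ a).1.1 x ^ 2 / ‖x - y‖ = phiC n ‖y‖ := by
  have h : ∀ j : Fin (n - 1), ∑ i : Fin ((j.1 + 1) ^ 2),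
      ∫ x, (φ ⟨j, i⟩).1.1 x ^ 2 / ‖x - y‖ = potS (j.1 + 1) ‖y‖ := by
    intro j
    have hc : Fintype.card (Fin ((j.1 + 1) ^ 2)) = (j.1 + 1) ^ 2 := Fintype.card_fin _
    have ho' : ∀ i k : Fin ((j.1 + 1) ^ 2),
        ip (φ ⟨j, i⟩) (φ ⟨j, k⟩) = if i = k then 1 else 0 := by
      intro i k
      rw [ho]
      by_cases hik : i = k
      · rw [if_pos hik, if_pos (by rw [hik])]
      · rw [if_neg hik, if_neg]
        intro h
        exact hik (by simpa using h)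
    exact shell_pot hc (fun i => φ ⟨j, i⟩) (fun i => hφ ⟨j, i⟩) ho' hy
  rw [phiC, Fintype.sum_sigma, Finset.sum_range]
  exact congrArg (fun t => 2 * t) (Finset.sum_congr rfl fun j _ => h j)

/-- the light nuclei: `2 ∑_a ⟨φ_a, v φ_a⟩ = - ∑_k phiC n ‖y_k‖` for `v = - ∑_k 1/‖x - y_k‖` -/
theorem closed_vI {κ : Type*} (n : ℕ) (φ : Closed (n - 1) → H1) (hφ : ∀ a, φ a ∈ Shell a.1.1)
    (ho : ∀ a b, ip (φ a) (φ b) = if a = b then 1 else 0) (L : Finset κ) (y : κ → R3)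
    (hy : ∀ k ∈ L, y k ≠ 0) :
    2 * ∑ a, vI (fun x => -∑ k ∈ L, 1 / ‖x - y k‖) (φ a) (φ a) = -∑ k ∈ L, phiC n ‖y k‖ := by
  have h1 : ∀ a, vI (fun x => -∑ k ∈ L, 1 / ‖x - y k‖) (φ a) (φ a) =
      -∑ k ∈ L, ∫ x, (φ a).1.1 x ^ 2 / ‖x - y k‖ := by
    intro a
    rw [vI, ← integral_finsetSum _ fun k _ => (int_pt (φ a) (y k)).1, ← integral_neg]
    refine integral_congr_ae (ae_of_all _ fun x => ?_)
    simp only
    rw [neg_mul, Finset.sum_mul]
    congr 1
    refine Finset.sum_congr rfl fun k _ => ?_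
    ring
  simp_rw [h1]
  rw [Finset.sum_neg_distrib, mul_neg, Finset.sum_comm, Finset.mul_sum]
  congr 1
  exact Finset.sum_congr rfl fun k hk => closed_pot n φ hφ ho (hy k hk)

end

end Vale.Agent.P370.H227
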