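import Vale.Agent.P370.H227.Ring
import Vale.Agent.P370.H855.Arith

/-!
P370, block LC, part 5.  The potentials `potS`, `phiC`, `phiJ` are polynomial-time approximable
(`PTR`).
-/

namespace Vale.Agent.P370.H227

open Vale.Agent.Lib.PolyTime Vale.Agent.P370.H855
open scoped Nat
open Vale.Agent.P363.Stmt (R3)

noncomputable section

variable {α : Type*} [Enc α]

theorem PT_choose {n i : α → ℕ} (hn : PT ∅ n) (hnb : PBd n) (hi : PT ∅ i) :
    PT ∅ (fun a => (n a).choose (i a)) := by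
  have hm : PT ∅ (fun a => min (i a) (n a)) := hi.min hn
  have hmb : PBd (fun a => min (i a) (n a)) := hnb.mono fun a => min_le_right _ _
  have h1 := PT.factorial hn hnb
  have h2 := PT.factorial hm hmb
  have h3 := PT.factorial (hn.sub hm) (hnb.mono fun a => Nat.sub_le _ _)
  refine (PT.ite (PT.le hi hn) (h1.div (h2.mul h3)) (PT.const 0)).congr fun a => ?_
  by_cases h : i a ≤ n a
  · rw [if_pos h, min_eq_left h, Nat.choose_eq_factorial_div_factorial h]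
  · rw [if_neg h, Nat.choose_eq_zero_of_lt (by omega)]

theorem PTR_Hd {d : α → ℕ} (hd : PT ∅ d) (hdb : PBd d) {z : α → ℝ} (hz : PTR z) :
    PTR (fun a => Hd (d a) (z a)) := by
  refine PTR.sumUn (n := fun a => d a + 1)
    (F := fun a b => ((d a : ℝ) + 1 - b) * (z a ^ b / b !)) (hd.add (PT.const 1))
    (hdb.add (PBd.const 1)) ?_
  have h1 : PTR (fun p : α × Un => ((d p.1 : ℕ) : ℝ)) := PTR.ofNat (hd.comp PT.fst')
  have h2 : PTR (fun p : α × Un => ((p.2.v : ℕ) : ℝ)) := PTR.ofNat PT_precv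
  have h3 : PTR (fun p : α × Un => z p.1 ^ p.2.v) := (hz.comp PT.fst').pow PT_precv PBd_precv
  have h4 : PTR (fun p : α × Un => ((1 : ℤ) : ℝ) / ((p.2.v ! : ℕ) : ℝ)) :=
    PTR.ofFrac (PT.const 1) (PT.factorial PT_precv PBd_precv)
  exact (((h1.add PTR.one).sub h2).mul (h3.mul h4)).congr fun p => by push_cast; ring

theorem PT_Gc {n i j : α → ℕ} (hn : PT ∅ n) (hnb : PBd n) (hi : PT ∅ i) (hib : PBd i)
    (hj : PT ∅ j) (hjb : PBd j) : PT ∅ (fun a => Gc (n a) (i a) (j a)) := by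
  have h1 : PT ∅ (fun a => ((j a : ℕ) : ℤ) - ((i a : ℕ) : ℤ)) := PT.intSub hj.natCast hi.natCast
  have h2 : PT ∅ (fun a => ((-1 : ℤ)) ^ (i a + j a)) :=
    PT_intPow (PT.const (-1)) (hi.add hj) (hib.add hjb)
  have h3 := (PT_choose hn hnb hi).natCast
  have h4 := (PT_choose hn hnb hj).natCast
  have h5 := (PT_choose (hi.add hj) (hib.add hjb) hi).natCast
  exact (PT.intMul (PT.intMul (PT.intNeg (PT.intPow h1 2)) h2)
    (PT.intMul (PT.intMul h3 h4) h5)).congr fun a => by rw [Gc]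

theorem PTR_Gn {n : α → ℕ} (hn : PT ∅ n) (hnb : PBd n) {z : α → ℝ} (hz : PTR z) :
    PTR (fun a => Gn (n a) (z a)) := by
  refine PTR.sumUn (n := fun a => n a + 1)
    (F := fun a j => ∑ i ∈ Finset.range j, (Gc (n a) i j : ℝ) * Hd (i + j) (z a))
    (hn.add (PT.const 1)) (hnb.add (PBd.const 1)) ?_
  refine PTR.sumUn (α := α × Un) (n := fun p => p.2.v)
    (F := fun p i => (Gc (n p.1) i p.2.v : ℝ) * Hd (i + p.2.v) (z p.1)) PT_precv PBd_precv ?_
  have hj : PT ∅ (fun q : (α × Un) × Un => q.1.2.v) := PT_precv.comp PT.fst'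
  have hjb : PBd (fun q : (α × Un) × Un => q.1.2.v) := PBd_precv.comp (A := ∅) PT.fst'
  have hi : PT ∅ (fun q : (α × Un) × Un => q.2.v) := PT_precv
  have hib : PBd (fun q : (α × Un) × Un => q.2.v) := PBd_precv
  have hn' : PT ∅ (fun q : (α × Un) × Un => n q.1.1) := hn.comp PT.fst'.fst
  have hnb' : PBd (fun q : (α × Un) × Un => n q.1.1) := hnb.comp (A := ∅) PT.fst'.fst
  exact (PTR.ofInt (PT_Gc hn' hnb' hi hib hj hjb)).mul
    (PTR_Hd (hi.add hj) (hib.add hjb) (hz.comp PT.fst'.fst))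

theorem PTR_z {n : α → ℕ} (hn : PT ∅ n) {r : α → ℝ} (hr : PTR r) :
    PTR (fun a => 2 * r a / n a) :=
  (hr.mul (PTR.ofFrac (PT.const 2) hn)).congr fun a => by push_cast; ring

theorem PTR_ez {n : α → ℕ} (hn : PT ∅ n) {r : α → ℝ} (hr : PTR r) (hr0 : ∀ a, 0 ≤ r a) :
    PTR (fun a => Real.exp (-(2 * r a / n a))) :=
  (PTR_z hn hr).expNeg fun a => by have := hr0 a; positivity

/-- potential of the `(n+1)`-st shell -/
theorem PTR_potS {n : α → ℕ} (hn : PT ∅ n) (hnb : PBd n) {r : α → ℝ} (hr : PTR r)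
    (hr0 : ∀ a, 0 ≤ r a) {c : α → ℕ} (hc : PT ∅ c) (hcb : PBd c) (hrc : ∀ a, 1 / 2 ^ c a ≤ r a) :
    PTR (fun a => potS (n a + 1) (r a)) := by
  have hn1 : PT ∅ (fun a => n a + 1) := hn.add (PT.const 1)
  have hn1b : PBd (fun a => n a + 1) := hnb.add (PBd.const 1)
  have hz := PTR_z hn1 hr
  have hG := PTR_Gn hn1 hn1b hz
  have hG0 : PTR (fun a => ((GZ (n a + 1) : ℤ) : ℝ)) :=
    (PTR_Gn hn1 hn1b (PTR.zero (α := α))).congr fun a => Gn_zero_eq _
  have hE := PTR_ez hn1 hr hr0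
  have hq := hG.div hG0 (c := fun _ => 0) (PT.const 0) (PBd.const 0) fun a => by
    have h := one_le_GZ (Nat.succ_ne_zero (n a))
    have h1 : (1 : ℝ) ≤ ((GZ (n a + 1) : ℤ) : ℝ) := by exact_mod_cast h
    rw [abs_of_pos (by linarith)]
    simpa using h1
  refine (((PTR.ofNat hn1).powConst 2).mul (PTR.one.sub (hq.mul hE))).div hr hc hcb
    (fun a => by rw [abs_of_nonneg (hr0 a)]; exact hrc a) |>.congr fun a => ?_
  rw [potS_eq (Nat.succ_ne_zero (n a))]

theorem PTR_phiC {n : α → ℕ} (hn : PT ∅ n) (hnb : PBd n) {r : α → ℝ} (hr : PTR r)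
    (hr0 : ∀ a, 0 ≤ r a) {c : α → ℕ} (hc : PT ∅ c) (hcb : PBd c) (hrc : ∀ a, 1 / 2 ^ c a ≤ r a) :
    PTR (fun a => phiC (n a) (r a)) := by
  have h : PTR (fun a => ∑ j ∈ Finset.range (n a - 1), potS (j + 1) (r a)) := by
    refine PTR.sumUn (n := fun a => n a - 1) (F := fun a j => potS (j + 1) (r a))
      (hn.sub (PT.const 1)) (hnb.mono fun a => Nat.sub_le _ _) ?_
    exact PTR_potS (α := α × Un) PT_precv PBd_precv (hr.comp PT.fst') (fun p => hr0 p.1)
      (hc.comp PT.fst') (hcb.comp (A := ∅) PT.fst') (fun p => hrc p.1)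
  exact ((PTR.constNat 2).mul h).congr fun a => by rw [phiC]; push_cast; rfl

theorem PTR_phiJ {n : α → ℕ} (hn : PT ∅ n) (hnb : PBd n) {r : α → ℝ} (hr : PTR r)
    (hr0 : ∀ a, 0 ≤ r a) {c : α → ℕ} (hc : PT ∅ c) (hcb : PBd c) (hrc : ∀ a, 1 / 2 ^ c a ≤ r a) :
    PTR (fun a => phiJ (n a) (r a)) := by
  have hz := PTR_z hn hr
  have h2n : PT ∅ (fun a => 2 * n a - 1) := ((PT.const 2).mul hn).sub (PT.const 1)
  have h2nb : PBd (fun a => 2 * n a - 1) := ((PBd.const 2).mul hnb).mono fun a => Nat.sub_le _ _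
  have hH := PTR_Hd h2n h2nb hz
  have hE := PTR_ez hn hr hr0
  have hq : PTR (fun a => ((1 : ℤ) : ℝ) / ((2 * n a : ℕ) : ℝ)) :=
    PTR.ofFrac (PT.const 1) ((PT.const 2).mul hn)
  refine (PTR.one.sub ((hH.mul hq).mul hE)).div hr hc hcb
    (fun a => by rw [abs_of_nonneg (hr0 a)]; exact hrc a) |>.congr fun a => ?_
  rw [phiJ]
  push_cast
  ring

theorem PTR_norm {y : α → R3} (hy : ∀ i, PTR (fun a => y a i)) : PTR (fun a => ‖y a‖) := by
  refine ((((hy 0).powConst 2).add ((hy 1).powConst 2)).add ((hy 2).powConst 2)).sqrt.congr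
    fun a => ?_
  rw [EuclideanSpace.norm_eq]
  simp [Fin.sum_univ_three]

end

end Vale.Agent.P370.H227
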