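import Vale.Agent.P370.H32.Defs
import Vale.Agent.P363.R.H10.Newton

/-!
P370, block LC, part 1.  Potential of a closed hydrogenic shell: `tl κ Q` is the polynomial with
`∫_w^∞ Q(t) e^{-κ t} dt = (tl κ Q)(w) e^{-κ w}`; Newton's theorem for densities
`Q(2r) e^{-2κ r} / r`.
-/

namespace Vale.Agent.P370.H227

open MeasureTheory Set Real Filter Topology Polynomial
open Vale.Agent.P363.Stmt (R3)
open Vale.Agent.P363.R.H10 (Rad Dec VV newton)

noncomputable section

/-- `∑_k κ^{-(k+1)} Q^{(k)}`: the polynomial `T` with `κ T - T' = Q` -/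
def tl (κ : ℝ) (Q : ℝ[X]) : ℝ[X] :=
  ∑ k ∈ Finset.range (Q.natDegree + 1), C (κ⁻¹ ^ (k + 1)) * derivative^[k] Q

theorem tl_eq {κ : ℝ} (hκ : κ ≠ 0) (Q : ℝ[X]) : C κ * tl κ Q - derivative (tl κ Q) = Q := by
  have h0 : derivative^[Q.natDegree + 1] Q = 0 :=
    Polynomial.iterate_derivative_eq_zero (Nat.lt_succ_self _)
  have h1 : C κ * tl κ Q = ∑ k ∈ Finset.range (Q.natDegree + 1), C (κ⁻¹ ^ k) * derivative^[k] Q := by
    rw [tl, Finset.mul_sum]
    refine Finset.sum_congr rfl fun k _ => ?_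
    rw [← mul_assoc, ← C_mul, pow_succ]
    congr 2
    field_simp
  have h2 : derivative (tl κ Q) =
      ∑ k ∈ Finset.range (Q.natDegree + 1), C (κ⁻¹ ^ (k + 1)) * derivative^[k + 1] Q := by
    rw [tl, derivative_sum]
    refine Finset.sum_congr rfl fun k _ => ?_
    rw [derivative_C_mul, Function.iterate_succ_apply']
  rw [h1, h2, Finset.sum_range_succ' (fun k => C (κ⁻¹ ^ k) * derivative^[k] Q),
    Finset.sum_range_succ (fun k => C (κ⁻¹ ^ (k + 1)) * derivative^[k + 1] Q), h0]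
  simp

theorem tl_eval {κ : ℝ} (hκ : κ ≠ 0) (Q : ℝ[X]) (w : ℝ) :
    (derivative (tl κ Q)).eval w - κ * (tl κ Q).eval w = -Q.eval w := by
  have h := congrArg (eval w) (tl_eq hκ Q)
  simp only [eval_sub, eval_mul, eval_C] at h
  linarith

theorem hasDerivAt_pe (P : ℝ[X]) (a b : ℝ) (r : ℝ) :
    HasDerivAt (fun r => P.eval (a * r) * exp (-(b * r)))
      ((a * (derivative P).eval (a * r) - b * P.eval (a * r)) * exp (-(b * r))) r := by
  have h1 : HasDerivAt (fun r => P.eval (a * r)) ((derivative P).eval (a * r) * a) r := by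
    have := (P.hasDerivAt (a * r)).comp r ((hasDerivAt_id r).const_mul a)
    rw [mul_one] at this
    exact this
  have h2 : HasDerivAt (fun r => exp (-(b * r))) (exp (-(b * r)) * (-(b * 1))) r :=
    (((hasDerivAt_id r).const_mul b).neg).exp
  have h3 := h1.mul h2
  convert! h3 using 1
  ring

theorem hasDerivAt_tl {κ : ℝ} (hκ : κ ≠ 0) (Q : ℝ[X]) (a : ℝ) (r : ℝ) :
    HasDerivAt (fun r => (tl κ Q).eval (a * r) * exp (-(a * κ * r)))
      (-a * (Q.eval (a * r) * exp (-(a * κ * r)))) r := by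
  have h := hasDerivAt_pe (tl κ Q) a (a * κ) r
  convert! h using 1
  have := tl_eval hκ Q (a * r)
  rw [show a * (derivative (tl κ Q)).eval (a * r) - a * κ * (tl κ Q).eval (a * r) =
    a * ((derivative (tl κ Q)).eval (a * r) - κ * (tl κ Q).eval (a * r)) by ring, this]
  ring

theorem tendsto_pe (P : ℝ[X]) {b : ℝ} (hb : 0 < b) :
    Tendsto (fun r : ℝ => P.eval r * exp (-(b * r))) atTop (𝓝 0) := by
  induction P using Polynomial.induction_on' with
  | add p q hp hq => simpa [add_mul] using hp.add hq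
  | monomial k c =>
    have h := (tendsto_pow_mul_exp_neg_atTop_nhds_zero k).comp
      (tendsto_id.const_mul_atTop hb : Tendsto (fun r : ℝ => b * r) atTop atTop)
    have h2 := h.const_mul (c / b ^ k)
    simp only [mul_zero] at h2
    refine h2.congr fun r => ?_
    simp only [Function.comp_apply, eval_monomial, mul_pow]
    field_simp

theorem dec_pe (P : ℝ[X]) (a : ℝ) {b : ℝ} (hb : 0 < b) :
    Dec (fun r => P.eval (a * r) * exp (-(b * r))) := by
  intro m
  set Q : ℝ[X] := (1 + X) ^ m * P.comp (C a * X) with hQ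
  have hev : ∀ r, Q.eval r = (1 + r) ^ m * P.eval (a * r) := fun r => by
    simp [hQ]
  have hc : Continuous (fun r : ℝ => Q.eval r * exp (-(b * r))) := by fun_prop
  have ht := tendsto_pe Q hb
  obtain ⟨N, hN⟩ := Filter.eventually_atTop.1 (ht.norm.eventually (gt_mem_nhds (by simp : ‖(0:ℝ)‖ < 1)))
  obtain ⟨K, hK⟩ := (isCompact_Icc (a := (0:ℝ)) (b := max N 0)).exists_bound_of_continuousOn
    hc.continuousOn
  refine ⟨max K 1, fun r hr => ?_⟩
  have hpos : 0 < (1 + r) ^ m := by positivity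
  rw [le_div_iff₀ hpos]
  have e1 : |P.eval (a * r) * exp (-(b * r))| * (1 + r) ^ m = ‖Q.eval r * exp (-(b * r))‖ := by
    rw [hev, Real.norm_eq_abs, mul_assoc, abs_mul ((1 + r) ^ m), abs_of_pos hpos]; ring
  rw [e1]
  rcases le_total r (max N 0) with h | h
  · exact (hK r ⟨hr, h⟩).trans (le_max_left _ _)
  · exact (hN r ((le_max_left _ _).trans h)).le.trans (le_max_right _ _)

/-- radial data of the density `Q(2r) e^{-2κr}/r` -/
theorem rad_pe (Q : ℝ[X]) {κ : ℝ} (hκ : 0 < κ) :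
    Rad (fun r => (tl κ (tl κ Q)).eval (2 * r) * exp (-(2 * κ * r)) / 4)
      (fun r => -((tl κ Q).eval (2 * r) * exp (-(2 * κ * r))) / 2)
      (fun r => Q.eval (2 * r) * exp (-(2 * κ * r))) := by
  have h2 : 0 < 2 * κ := by positivity
  have hdec : ∀ (P : ℝ[X]) (c : ℝ), Dec (fun r => P.eval (2 * r) * exp (-(2 * κ * r)) * c) := by
    intro P c m
    obtain ⟨K, hK⟩ := dec_pe P 2 h2 m
    refine ⟨K * |c|, fun r hr => ?_⟩
    rw [abs_mul]
    calc _ ≤ K / (1 + r) ^ m * |c| := mul_le_mul_of_nonneg_right (hK r hr) (abs_nonneg _)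
      _ = _ := by ring
  refine ⟨fun r => ?_, fun r => ?_, by fun_prop, ?_, ?_, ?_⟩
  · have := (hasDerivAt_tl hκ.ne' (tl κ Q) 2 r).div_const 4
    convert! this using 1
    ring
  · have := ((hasDerivAt_tl hκ.ne' Q 2 r).neg).div_const 2
    convert! this using 1
    ring
  · have := hdec (tl κ (tl κ Q)) (1 / 4)
    intro m
    obtain ⟨K, hK⟩ := this m
    exact ⟨K, fun r hr => by simpa [div_eq_mul_inv] using hK r hr⟩
  · have := hdec (tl κ Q) (-1 / 2)
    intro m
    obtain ⟨K, hK⟩ := this m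
    refine ⟨K, fun r hr => ?_⟩
    have h := hK r hr
    simp only at h ⊢
    rwa [show (tl κ Q).eval (2 * r) * exp (-(2 * κ * r)) * (-1 / 2) =
      -((tl κ Q).eval (2 * r) * exp (-(2 * κ * r))) / 2 by ring] at h
  · have := hdec Q 1
    intro m
    obtain ⟨K, hK⟩ := this m
    exact ⟨K, fun r hr => by simpa using hK r hr⟩

/-- **Newton's theorem** for the densities `Q(2r) e^{-2κr}/r`. -/
theorem newton_pe (Q : ℝ[X]) {κ : ℝ} (hκ : 0 < κ) {x : R3} (hx : x ≠ 0) :
    ∫ y : R3, Q.eval (2 * ‖y‖) * exp (-(2 * κ * ‖y‖)) / ‖y‖ / ‖x - y‖ =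
      π * ((tl κ (tl κ Q)).eval 0 -
        (tl κ (tl κ Q)).eval (2 * ‖x‖) * exp (-(2 * κ * ‖x‖))) / ‖x‖ := by
  rw [newton (rad_pe Q hκ) hx]
  simp only [VV, mul_zero, neg_zero, exp_zero]
  ring

end

end Vale.Agent.P370.H227
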