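import Vale.Agent.P370.H227.Closed
import Mathlib.MeasureTheory.Constructions.HaarToSphere
import Mathlib.MeasureTheory.Measure.Lebesgue.VolumeOfBalls

/-!
P370, block LC, part 4.  Total mass of the densities `Q(2r) e^{-2κr}/r`; the potential `phiJ` of the
normalised density `r^(2n-2) e^{-2r/n}`; the potential `phiC` of the closed shells `< n`.
-/

namespace Vale.Agent.P370.H227

open MeasureTheory Set Real Filter Topology Polynomial
open scoped Nat
open Vale.Agent.P363.Stmt (R3)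
open Vale.Agent.P370.H32 hiding Lp

noncomputable section

theorem integral_radial3 (f : ℝ → ℝ) :
    ∫ y : R3, f ‖y‖ = 4 * π * ∫ r in Ioi (0 : ℝ), r ^ 2 * f r := by
  rw [integral_fun_norm_addHaar (volume : Measure R3) f]
  have h1 : (volume : Measure R3).real (Metric.ball 0 1) = π * 4 / 3 := by
    rw [Measure.real, EuclideanSpace.volume_ball_fin_three]
    simp
    positivity
  rw [h1]
  simp only [finrank_euclideanSpace, Fintype.card_fin, nsmul_eq_mul, smul_eq_mul]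
  push_cast
  ring

/-- the mass of the density `Q(2r) e^{-2κr}/r` -/
theorem mass_pe (Q : ℝ[X]) {κ : ℝ} (hκ : 0 < κ) (hQ : ∀ w, 0 ≤ w → 0 ≤ Q.eval w) :
    ∫ y : R3, Q.eval (2 * ‖y‖) * exp (-(2 * κ * ‖y‖)) / ‖y‖ =
      π * (tl κ (tl κ Q)).eval 0 := by
  rw [integral_radial3 (fun r => Q.eval (2 * r) * exp (-(2 * κ * r)) / r)]
  have h2 : 0 < 2 * κ := by positivity
  set F : ℝ → ℝ := fun r => r * (-((tl κ Q).eval (2 * r) * exp (-(2 * κ * r))) / 2) -
    (tl κ (tl κ Q)).eval (2 * r) * exp (-(2 * κ * r)) / 4 with hF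
  have hd : ∀ r, HasDerivAt F (r * (Q.eval (2 * r) * exp (-(2 * κ * r)))) r := by
    intro r
    have h1 := ((hasDerivAt_tl hκ.ne' Q 2 r).neg).div_const 2
    have h3 := (hasDerivAt_tl hκ.ne' (tl κ Q) 2 r).div_const 4
    have h4 := ((hasDerivAt_id' r).mul h1).sub h3
    rw [hF]
    convert! h4 using 1
    simp only [Pi.neg_apply]
    ring
  have ht : Tendsto F atTop (𝓝 0) := by
    have h := tendsto_pe (X * (C (-1 / 2) * (tl κ Q).comp (C 2 * X)) -
      C (1 / 4) * (tl κ (tl κ Q)).comp (C 2 * X)) h2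
    refine h.congr fun r => ?_
    simp only [hF, eval_sub, eval_mul, eval_X, eval_C, eval_comp]
    ring
  have h := integral_Ioi_of_hasDerivAt_of_nonneg' (a := 0) (fun w _ => hd w)
    (fun w (hw : 0 < w) => mul_nonneg hw.le (mul_nonneg (hQ _ (by positivity)) (exp_pos _).le)) ht
  have h5 : ∫ r in Ioi (0 : ℝ), r ^ 2 * (Q.eval (2 * r) * exp (-(2 * κ * r)) / r) =
      ∫ r in Ioi (0 : ℝ), r * (Q.eval (2 * r) * exp (-(2 * κ * r))) := by
    refine setIntegral_congr_fun measurableSet_Ioi fun r (hr : 0 < r) => ?_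
    field_simp
  rw [h5, h, hF]
  simp
  ring

/-- the unnormalised spherical ring density -/
def wS (n : ℕ) (y : R3) : ℝ := ‖y‖ ^ (2 * n - 2) * exp (-(2 * ‖y‖ / n))

/-- its mass -/
def wM (n : ℕ) : ℝ := π * (2 * n)! * (n : ℝ) ^ (2 * n + 1) / 2 ^ (2 * n - 1)

/-- potential of the normalised density -/
def phiJ (n : ℕ) (r : ℝ) : ℝ := (1 - Hd (2 * n - 1) (2 * r / n) / (2 * n) * exp (-(2 * r / n))) / r

theorem wS_eq {n : ℕ} (hn : n ≠ 0) {y : R3} (hy : y ≠ 0) :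
    wS n y = 1 / 2 ^ (2 * n - 1) * ((X ^ (2 * n - 1) : ℝ[X]).eval (2 * ‖y‖) *
      exp (-(2 * (1 / (n : ℝ)) * ‖y‖)) / ‖y‖) := by
  have hy' : ‖y‖ ≠ 0 := norm_ne_zero_iff.2 hy
  have hn' : (n : ℝ) ≠ 0 := by exact_mod_cast hn
  rw [wS, eval_pow, eval_X, mul_pow, show 2 * n - 1 = (2 * n - 2) + 1 by omega,
    pow_succ ‖y‖, show 2 * (1 / (n : ℝ)) * ‖y‖ = 2 * ‖y‖ / n by ring]
  field_simp

theorem wM_eq {n : ℕ} (hn : n ≠ 0) : wM n = 1 / 2 ^ (2 * n - 1) *
    (π * (tl (1 / n) (tl (1 / n) (X ^ (2 * n - 1)))).eval 0) := by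
  rw [tl2_eval hn, zero_div, Hd_zero_right, wM]
  obtain ⟨m, hm⟩ : ∃ m, 2 * n = m + 1 := ⟨2 * n - 1, by omega⟩
  have h2 : 2 * n - 1 = m := by omega
  rw [h2, hm, Nat.factorial_succ]
  push_cast
  ring

theorem wM_pos (n : ℕ) (hn : n ≠ 0) : 0 < wM n := by
  have hn' : (0 : ℝ) < n := by positivity
  rw [wM]
  positivity

theorem integral_wS {n : ℕ} (hn : n ≠ 0) : ∫ y : R3, wS n y = wM n := by
  have hκ : 0 < (1 / (n : ℝ)) := by positivity
  have h := mass_pe (X ^ (2 * n - 1)) hκ (fun w hw => by simp; positivity)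
  have h2 : ∀ᵐ y : R3, wS n y = 1 / 2 ^ (2 * n - 1) * ((X ^ (2 * n - 1) : ℝ[X]).eval (2 * ‖y‖) *
      exp (-(2 * (1 / (n : ℝ)) * ‖y‖)) / ‖y‖) := by
    filter_upwards [Vale.Agent.P363.R.H10.ae_ne_zero] with y hy
    exact wS_eq hn hy
  rw [integral_congr_ae h2, integral_const_mul, h, wM_eq hn]

/-- **Potential of the spherical ring density.** -/
theorem integral_wS_div {n : ℕ} (hn : n ≠ 0) {x : R3} (hx : x ≠ 0) :
    ∫ y : R3, wS n y / ‖x - y‖ = wM n * phiJ n ‖x‖ := by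
  have hκ : 0 < (1 / (n : ℝ)) := by positivity
  have hn' : (n : ℝ) ≠ 0 := by exact_mod_cast hn
  have h := newton_pe (X ^ (2 * n - 1)) hκ hx
  have h2 : ∀ᵐ y : R3, wS n y / ‖x - y‖ = 1 / 2 ^ (2 * n - 1) *
      ((X ^ (2 * n - 1) : ℝ[X]).eval (2 * ‖y‖) *
      exp (-(2 * (1 / (n : ℝ)) * ‖y‖)) / ‖y‖ / ‖x - y‖) := by
    filter_upwards [Vale.Agent.P363.R.H10.ae_ne_zero] with y hy
    rw [wS_eq hn hy]
    ring
  rw [integral_congr_ae h2, integral_const_mul, h, wM_eq hn, tl2_eval hn, tl2_eval hn, phiJ,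
    zero_div, Hd_zero_right]
  have h3 : ((2 * n - 1 : ℕ) : ℝ) + 1 = 2 * n := by
    rw [Nat.cast_sub (by omega)]; push_cast; ring
  rw [h3, show 2 * (1 / (n : ℝ)) * ‖x‖ = 2 * ‖x‖ / n by ring]
  have hx' : ‖x‖ ≠ 0 := norm_ne_zero_iff.2 hx
  field_simp

/-- potential of the closed shells `< n` (both spins) -/
def phiC (n : ℕ) (r : ℝ) : ℝ := 2 * ∑ j ∈ Finset.range (n - 1), potS (j + 1) r

end

end Vale.Agent.P370.H227
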