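import Vale.Agent.P370.H227.Pot

/-!
P370, block LC, part 2.  The density `KK n x x` of a closed hydrogenic shell and its Coulomb
potential `n² (1 - p_n(2r) e^{-2r/n})/r`.
-/

namespace Vale.Agent.P370.H227

open MeasureTheory Set Real Filter Topology Polynomial
open Vale.Agent.P363.Stmt (R3)
open Vale.Agent.P370.H32 hiding Lp

noncomputable section

/-! ### The Laguerre polynomial -/

theorem aQ_zero_of_lt {n : ℕ} (hn : n ≠ 0) : ∀ i, n < i → aQ n i = 0 := by
  intro i hi
  obtain ⟨k, rfl⟩ : ∃ k, i = n + 1 + k := ⟨i - (n + 1), by omega⟩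
  clear hi
  induction k with
  | zero =>
    have hn' : (n : ℚ) ≠ 0 := by exact_mod_cast hn
    rw [add_zero, aQ, div_self hn']
    simp
  | succ k ih => rw [← add_assoc, aQ, ih]; simp

theorem coeff_Lp {n : ℕ} (hn : n ≠ 0) (i : ℕ) : (H32.Lp n).coeff i = ((aQ n i : ℚ) : ℝ) := by
  rw [H32.Lp, finsetSum_coeff]
  simp only [coeff_C_mul, coeff_X_pow]
  by_cases hi : i < n + 1
  · rw [Finset.sum_eq_single i]
    · simp
    · intro j _ hj
      simp [Ne.symm hj]
    · intro h
      exact absurd (Finset.mem_range.2 hi) h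
  · rw [Finset.sum_eq_zero, aQ_zero_of_lt hn i (by omega)]
    · simp
    · intro j hj
      have : i ≠ j := fun h => hi (h ▸ Finset.mem_range.1 hj)
      simp [this]

/-- `X L'' + (1 - X/n) L' + L = 0` -/
theorem Lp_ode {n : ℕ} (hn : n ≠ 0) :
    X * derivative (derivative (H32.Lp n)) + (1 - C (1 / (n : ℝ)) * X) * derivative (H32.Lp n) + H32.Lp n = 0 := by
  ext i
  have hn' : (n : ℝ) ≠ 0 := by exact_mod_cast hn
  have key : ∀ i : ℕ, ((aQ n (i + 1) : ℚ) : ℝ) * ((i : ℝ) + 1) ^ 2 =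
      ((i : ℝ) / n - 1) * ((aQ n i : ℚ) : ℝ) := by
    intro i
    have hi : ((i : ℝ) + 1) ≠ 0 := by positivity
    rw [aQ]
    push_cast
    field_simp
  rw [sub_mul, one_mul, mul_assoc]
  simp only [coeff_add, coeff_sub, coeff_C_mul, coeff_zero]
  cases i with
  | zero =>
    simp only [mul_coeff_zero, coeff_X_zero, zero_mul, coeff_derivative, coeff_Lp hn]
    have := key 0
    simp at this ⊢
    linarith
  | succ i =>
    simp only [coeff_X_mul, coeff_derivative, coeff_Lp hn]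
    have := key (i + 1)
    push_cast at this ⊢
    linear_combination this

/-- polynomial of the shell density: `S = X L'² - (X/n) L L' + L²` -/
def Sn (n : ℕ) : ℝ[X] :=
  X * derivative (H32.Lp n) ^ 2 - C (1 / (n : ℝ)) * X * H32.Lp n * derivative (H32.Lp n) + H32.Lp n ^ 2

theorem Sn_ode {n : ℕ} (hn : n ≠ 0) :
    derivative (Sn n) - C (1 / (n : ℝ)) * Sn n = -derivative (H32.Lp n) ^ 2 := by
  have h := Lp_ode hn
  simp only [Sn, derivative_sub, derivative_add, derivative_mul, derivative_X, derivative_C,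
    derivative_pow, map_natCast]
  push_cast
  simp only [pow_one]
  linear_combination (2 * derivative (H32.Lp n) - C (1 / (n : ℝ)) * H32.Lp n) * h

/-- `X S = (X L')² - L X (X L')'` -/
theorem X_mul_Sn {n : ℕ} (hn : n ≠ 0) :
    X * Sn n = (X * derivative (H32.Lp n)) ^ 2 -
      H32.Lp n * (X * (derivative (H32.Lp n) + X * derivative (derivative (H32.Lp n)))) := by
  have h := Lp_ode hn
  simp only [Sn]
  linear_combination (X * H32.Lp n) * h

theorem hsym_self (m : ℕ) (w : ℝ) : hsym m w w = (m + 1) * w ^ m := by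
  rw [hsym]
  have : ∀ l ∈ Finset.range (m + 1), w ^ l * w ^ (m - l) = w ^ m := by
    intro l hl
    rw [← pow_add]
    congr 1
    have := Finset.mem_range.1 hl
    omega
  rw [Finset.sum_congr rfl this]
  simp

theorem sum_sym {N : ℕ} (F : ℕ → ℕ → ℝ) (hF : ∀ i j, F i j = F j i) (h0 : ∀ i, F i i = 0) :
    ∑ j ∈ Finset.range N, ∑ i ∈ Finset.range N, F i j =
      2 * ∑ j ∈ Finset.range N, ∑ i ∈ Finset.range j, F i j := by
  induction N with
  | zero => simp
  | succ N ih =>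
    rw [Finset.sum_range_succ, Finset.sum_range_succ (fun j => ∑ i ∈ Finset.range j, F i j)]
    have : ∑ j ∈ Finset.range N, ∑ i ∈ Finset.range (N + 1), F i j =
        ∑ j ∈ Finset.range N, ∑ i ∈ Finset.range N, F i j + ∑ j ∈ Finset.range N, F j N := by
      rw [← Finset.sum_add_distrib]
      refine Finset.sum_congr rfl fun j _ => ?_
      rw [Finset.sum_range_succ, hF N j]
    rw [this, ih, Finset.sum_range_succ, h0]
    ring

theorem mul_Ssym_self {n : ℕ} (hn : n ≠ 0) (w : ℝ) :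
    w * Ssym n w w = w * (Sn n).eval w := by
  have hX := congrArg (eval w) (X_mul_Sn hn)
  rw [eval_mul, eval_X] at hX
  rw [hX]
  have e0 : (H32.Lp n).eval w = ∑ i ∈ Finset.range (n + 1), ((aQ n i : ℚ) : ℝ) * w ^ i := by
    simp [H32.Lp, eval_finsetSum]
  have e1 : (X * derivative (H32.Lp n)).eval w =
      ∑ i ∈ Finset.range (n + 1), (i : ℝ) * ((aQ n i : ℚ) : ℝ) * w ^ i := by
    simp only [H32.Lp, derivative_sum, Finset.mul_sum, eval_finsetSum]
    refine Finset.sum_congr rfl fun i _ => ?_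
    rcases i with _ | i
    · simp
    · simp
      ring
  have e2 : (X * (derivative (H32.Lp n) + X * derivative (derivative (H32.Lp n)))).eval w =
      ∑ i ∈ Finset.range (n + 1), (i : ℝ) ^ 2 * ((aQ n i : ℚ) : ℝ) * w ^ i := by
    have : X * (derivative (H32.Lp n) + X * derivative (derivative (H32.Lp n))) =
        X * derivative (X * derivative (H32.Lp n)) := by
      rw [derivative_mul, derivative_X]; ring
    rw [this]
    simp only [H32.Lp, derivative_sum, Finset.mul_sum, eval_finsetSum]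
    refine Finset.sum_congr rfl fun i _ => ?_
    rcases i with _ | i
    · simp
    · have : X * derivative (C ((aQ n (i + 1) : ℚ) : ℝ) * X ^ (i + 1)) =
          C ((aQ n (i + 1) : ℚ) * ((i : ℝ) + 1)) * X ^ (i + 1) := by
        rw [derivative_C_mul, derivative_X_pow]
        simp only [Nat.cast_add, Nat.cast_one, map_add, map_natCast, map_one, Nat.add_sub_cancel,
          map_mul]
        ring
      rw [this, derivative_C_mul, derivative_X_pow]
      simp
      ring
  have e1' : (X * derivative (H32.Lp n)).eval w = w * (derivative (H32.Lp n)).eval w := by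
    rw [eval_mul, eval_X]
  rw [eval_sub, eval_pow, eval_mul (p := H32.Lp n), e2, e1, e0]
  -- the symmetric double sum
  have h1 : w * Ssym n w w = -∑ j ∈ Finset.range (n + 1), ∑ i ∈ Finset.range j,
      ((j : ℝ) - i) ^ 2 * (((aQ n i : ℚ) : ℝ) * ((aQ n j : ℚ) : ℝ) * w ^ (i + j)) := by
    rw [Ssym, mul_neg, Finset.mul_sum]
    congr 1
    refine Finset.sum_congr rfl fun j _ => ?_
    rw [Finset.mul_sum]
    refine Finset.sum_congr rfl fun i hi => ?_
    have hij : i < j := Finset.mem_range.1 hi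
    rw [hsym_self]
    have c1 : (((j - i - 1 : ℕ) : ℝ) + 1) = (j : ℝ) - i := by
      rw [Nat.cast_sub (by omega), Nat.cast_sub hij.le]; push_cast; ring
    rw [c1]
    have c2 : w * (w * w) ^ i * w ^ (j - i - 1) = w ^ (i + j) := by
      rw [← pow_two, ← pow_mul, ← pow_succ', ← pow_add]
      congr 1
      omega
    rw [← c2]
    ring
  have h2 := sum_sym (N := n + 1) (fun i j => ((j : ℝ) - i) ^ 2 *
      (((aQ n i : ℚ) : ℝ) * ((aQ n j : ℚ) : ℝ) * w ^ (i + j)))
    (fun i j => by rw [add_comm j i]; ring) (fun i => by ring)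
  have h3 : ∑ j ∈ Finset.range (n + 1), ∑ i ∈ Finset.range (n + 1), ((j : ℝ) - i) ^ 2 *
      (((aQ n i : ℚ) : ℝ) * ((aQ n j : ℚ) : ℝ) * w ^ (i + j)) =
      2 * ((∑ i ∈ Finset.range (n + 1), ((aQ n i : ℚ) : ℝ) * w ^ i) *
        (∑ i ∈ Finset.range (n + 1), (i : ℝ) ^ 2 * ((aQ n i : ℚ) : ℝ) * w ^ i) -
      (∑ i ∈ Finset.range (n + 1), (i : ℝ) * ((aQ n i : ℚ) : ℝ) * w ^ i) ^ 2) := by
    rw [pow_two, Finset.sum_mul_sum, Finset.sum_mul_sum, mul_sub]
    have e3 : ∑ i ∈ Finset.range (n + 1), ∑ j ∈ Finset.range (n + 1),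
        ((aQ n i : ℚ) : ℝ) * w ^ i * ((j : ℝ) ^ 2 * ((aQ n j : ℚ) : ℝ) * w ^ j) =
        ∑ j ∈ Finset.range (n + 1), ∑ i ∈ Finset.range (n + 1),
        ((aQ n i : ℚ) : ℝ) * w ^ i * ((j : ℝ) ^ 2 * ((aQ n j : ℚ) : ℝ) * w ^ j) :=
      Finset.sum_comm
    have e4 : ∀ a b : ℝ, a = b → 2 * a = a + b := fun a b h => by rw [← h]; ring
    rw [e4 _ _ e3, Finset.mul_sum]
    simp only [Finset.mul_sum]
    rw [← Finset.sum_add_distrib, ← Finset.sum_sub_distrib]
    refine Finset.sum_congr rfl fun j _ => ?_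
    rw [← Finset.sum_add_distrib, ← Finset.sum_sub_distrib]
    refine Finset.sum_congr rfl fun i _ => ?_
    rw [pow_add]
    ring
  rw [h1]
  linarith

/-! ### The potential -/

/-- `P_n(w) e^{-w/n} = ∫_w^∞ (t - w) t S_n(t) e^{-t/n} dt` -/
def Pn (n : ℕ) : ℝ[X] := tl (1 / n) (tl (1 / n) (X * Sn n))

theorem fR_sq (n : ℕ) (w : ℝ) :
    fR n w ^ 2 = (X * derivative (H32.Lp n)).eval w ^ 2 * exp (-(w / n)) := by
  rw [fR, mul_pow, ← exp_nat_mul, eval_mul, eval_X]
  congr 2
  push_cast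
  rcases eq_or_ne (n : ℝ) 0 with h | h
  · simp [h]
  · field_simp

theorem hasDerivAt_tl1 {n : ℕ} (hn : n ≠ 0) (Q : ℝ[X]) (w : ℝ) :
    HasDerivAt (fun w => (tl (1 / n) Q).eval w * exp (-(w / n)))
      (-(Q.eval w * exp (-(w / n)))) w := by
  have hκ : (1 / (n : ℝ)) ≠ 0 := by positivity
  have h := hasDerivAt_tl hκ Q 1 w
  have e : (fun r : ℝ => (tl (1 / (n : ℝ)) Q).eval (1 * r) * exp (-(1 * (1 / (n : ℝ)) * r))) =
      fun w => (tl (1 / n) Q).eval w * exp (-(w / n)) := by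
    funext r
    rw [one_mul, one_mul, div_mul_eq_mul_div, one_mul]
  rw [e] at h
  convert! h using 1
  rw [one_mul, one_mul, div_mul_eq_mul_div, one_mul]
  ring

theorem ode_eval {n : ℕ} (hn : n ≠ 0) (w : ℝ) :
    w * (derivative (derivative (H32.Lp n))).eval w +
      (1 - w / n) * (derivative (H32.Lp n)).eval w + (H32.Lp n).eval w = 0 := by
  have h := congrArg (eval w) (Lp_ode hn)
  simp only [eval_add, eval_mul, eval_X, eval_sub, eval_one, eval_C, eval_zero] at h
  rw [show w / (n : ℝ) = 1 / n * w by ring]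
  exact h

theorem Sn_eval (n : ℕ) (w : ℝ) : (Sn n).eval w = w * (derivative (H32.Lp n)).eval w ^ 2 -
    w / n * (H32.Lp n).eval w * (derivative (H32.Lp n)).eval w + (H32.Lp n).eval w ^ 2 := by
  simp only [Sn, eval_add, eval_mul, eval_X, eval_sub, eval_C, eval_pow]
  ring

theorem hasDerivAt_exp_n (n : ℕ) (w : ℝ) :
    HasDerivAt (fun w => exp (-(w / (n : ℝ)))) (-(1 / n) * exp (-(w / n))) w := by
  have := (((hasDerivAt_id w).div_const (n : ℝ)).neg).exp
  convert! this using 1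
  simp
  ring

theorem hasDerivAt_Sn {n : ℕ} (hn : n ≠ 0) (w : ℝ) :
    HasDerivAt (fun w => (Sn n).eval w * exp (-(w / n)))
      (-((derivative (H32.Lp n)).eval w ^ 2 * exp (-(w / n)))) w := by
  have h := congrArg (eval w) (Sn_ode hn)
  simp only [eval_sub, eval_mul, eval_C, eval_neg, eval_pow] at h
  have := ((Sn n).hasDerivAt w).mul (hasDerivAt_exp_n n w)
  convert! this using 1
  linear_combination -exp (-(w / n)) * h

/-- the antiderivative of `-n² f²` -/
def Kn (n : ℕ) (w : ℝ) : ℝ :=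
  (Pn n).eval w * exp (-(w / n)) + w * ((tl (1 / n) (X * Sn n)).eval w * exp (-(w / n))) +
    w ^ 3 / 3 * ((Sn n).eval w * exp (-(w / n))) -
    n ^ 2 / 3 * (w ^ 2 * ((Sn n).eval w * exp (-(w / n))) +
      (-2 * w ^ 2 * (derivative (H32.Lp n)).eval w * (w / (2 * n) * (derivative (H32.Lp n)).eval w -
        (H32.Lp n).eval w) + w ^ 2 * (derivative (H32.Lp n)).eval w ^ 2) * exp (-(w / n)))

theorem hasDerivAt_Kn {n : ℕ} (hn : n ≠ 0) (w : ℝ) :
    HasDerivAt (Kn n) (-(n ^ 2 * fR n w ^ 2)) w := by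
  have hn' : (n : ℝ) ≠ 0 := by exact_mod_cast hn
  have hP := hasDerivAt_tl1 hn (tl (1 / n) (X * Sn n)) w
  have hT := hasDerivAt_tl1 hn (X * Sn n) w
  have hS := hasDerivAt_Sn hn w
  have hL := (H32.Lp n).hasDerivAt w
  have hL1 := (derivative (H32.Lp n)).hasDerivAt w
  have hid := hasDerivAt_id' w
  have hE := hasDerivAt_exp_n n w
  have hode := ode_eval hn w
  have hSe := Sn_eval n w
  have h1 := (hid.pow 2).mul hS
  have h2 := (((hid.pow 2).const_mul (-2)).mul hL1).mul (((hid.div_const (2 * (n : ℝ))).mul hL1).sub hL)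
  have h3 := (hid.pow 2).mul (hL1.pow 2)
  have h4 := ((h2.add h3).mul hE)
  have h := (((hP.add (hid.mul hT)).add (((hid.pow 3).div_const 3).mul hS)).sub
    ((h1.add h4).const_mul ((n : ℝ) ^ 2 / 3)))
  rw [fR_sq]
  convert! h using 1
  simp only [Pi.add_apply, Pi.mul_apply, Pi.sub_apply, Pi.pow_apply, eval_mul, eval_X]
  rw [hSe]
  push_cast
  clear h h4 h3 h2 h1 hE hid hL1 hL hS hT hP hSe
  generalize (derivative (derivative (H32.Lp n))).eval w = c at *
  generalize (derivative (H32.Lp n)).eval w = b at *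
  generalize (H32.Lp n).eval w = a at *
  generalize exp (-(w / (n : ℝ))) = E at *
  generalize eval w (tl (1 / (n : ℝ)) (X * Sn n)) = T at *
  generalize (n : ℝ) = ν at *
  have hode' : w * c = -(1 - w / ν) * b - a := by linarith
  have e : ∀ z : ℝ, (-2 * (2 * w ^ 1 * 1) * b + -2 * w ^ 2 * c) * (w / (2 * ν) * b - a) +
      -2 * w ^ 2 * b * (1 / (2 * ν) * b + w / (2 * ν) * c - b) +
      (2 * w ^ 1 * 1 * b ^ 2 + w ^ 2 * (2 * b ^ 1 * c)) =
      (-4 * w * b) * (w / (2 * ν) * b - a) + -2 * w ^ 2 * b * (1 / (2 * ν) * b - b) +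
      2 * w * b ^ 2 + w * (w * c) * (2 * a + 2 * b - 2 * w * b / ν) := by
    intro z
    field_simp
    ring
  rw [e 0, hode']
  field_simp
  ring

theorem tendsto_Kn {n : ℕ} (hn : n ≠ 0) : Tendsto (Kn n) atTop (𝓝 0) := by
  have hκ : 0 < (1 / (n : ℝ)) := by positivity
  have h := tendsto_pe (Pn n + X * tl (1 / n) (X * Sn n) + C (1 / 3) * X ^ 3 * Sn n -
    C ((n : ℝ) ^ 2 / 3) * (X ^ 2 * Sn n + (-2 * X ^ 2 * derivative (H32.Lp n) *
      (C (1 / (2 * (n : ℝ))) * X * derivative (H32.Lp n) - H32.Lp n) +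
        X ^ 2 * derivative (H32.Lp n) ^ 2))) hκ
  refine h.congr fun w => ?_
  simp only [eval_add, eval_sub, eval_mul, eval_pow, eval_X, eval_C, eval_neg, eval_ofNat, Kn]
  rw [show 1 / (n : ℝ) * w = w / n by ring]
  ring

theorem Pn_zero {n : ℕ} (hn : n ≠ 0) : (Pn n).eval 0 = n ^ 2 * A0 n := by
  have h := integral_Ioi_of_hasDerivAt_of_nonpos' (a := 0) (fun w _ => hasDerivAt_Kn hn w)
    (fun w _ => by have := sq_nonneg (fR n w); have : 0 ≤ (n : ℝ) ^ 2 * fR n w ^ 2 := by positivity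
                   linarith) (tendsto_Kn hn)
  rw [integral_neg, integral_const_mul, ← A0] at h
  have h0 : Kn n 0 = (Pn n).eval 0 := by simp [Kn]
  rw [h0] at h
  linarith

theorem A0_pos {n : ℕ} (hn : n ≠ 0) : 0 < A0 n := by
  have hint : IntegrableOn (fun w => fR n w ^ 2) (Ioi 0) := by
    have h := integrableOn_Ioi_deriv_of_nonpos' (a := 0) (fun w _ => hasDerivAt_Kn hn w)
      (fun w _ => by have := sq_nonneg (fR n w); have : 0 ≤ (n : ℝ) ^ 2 * fR n w ^ 2 := by positivity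
                     linarith) (tendsto_Kn hn)
    have h2 := h.const_mul (-(1 / (n : ℝ) ^ 2))
    have hn' : (n : ℝ) ≠ 0 := by exact_mod_cast hn
    refine IntegrableOn.congr_fun h2 (fun w _ => ?_) measurableSet_Ioi
    field_simp
  rw [A0]
  rw [setIntegral_pos_iff_support_of_nonneg_ae (ae_of_all _ fun w => by positivity) hint]
  -- near zero the function does not vanish
  have hc : Continuous (fun w => (derivative (H32.Lp n)).eval w) := by fun_prop
  have h0 : (derivative (H32.Lp n)).eval 0 ≠ 0 := by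
    rw [← coeff_zero_eq_eval_zero, coeff_derivative, coeff_Lp hn]
    simp [aQ]
  have hev := (hc.continuousAt (x := 0)).eventually_ne h0
  obtain ⟨ε, hε, hb⟩ := Metric.eventually_nhds_iff.1 hev
  refine lt_of_lt_of_le (b := volume (Ioo (0 : ℝ) ε)) (by simp [hε]) (measure_mono fun w hw => ?_)
  refine ⟨?_, hw.1⟩
  have h1 := hb (y := w) (by rw [Real.dist_eq, sub_zero, abs_of_pos hw.1]; exact hw.2)
  have hw0 : w ≠ 0 := hw.1.ne'
  simp only [Function.mem_support, fR]
  positivity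

/-- the closed form of the potential of the `n`-th shell -/
def potS (n : ℕ) (r : ℝ) : ℝ :=
  (n : ℝ) ^ 2 * (1 - (Pn n).eval (2 * r) / (Pn n).eval 0 * exp (-(2 * r / n))) / r

/-- **Potential of a closed shell.** -/
theorem integral_KK_div {n : ℕ} (hn : n ≠ 0) {x : R3} (hx : x ≠ 0) :
    ∫ y : R3, KK n y y / ‖x - y‖ = potS n ‖x‖ := by
  have hκ : 0 < (1 / (n : ℝ)) := by positivity
  have hA := A0_pos hn
  have hP := Pn_zero hn
  have hn' : (n : ℝ) ≠ 0 := by exact_mod_cast hn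
  have h := newton_pe (X * Sn n) hκ hx
  rw [← Pn] at h
  have h2 : ∀ᵐ y : R3, KK n y y / ‖x - y‖ = 1 / (π * A0 n) *
      ((X * Sn n).eval (2 * ‖y‖) * exp (-(2 * (1 / (n : ℝ)) * ‖y‖)) / ‖y‖ / ‖x - y‖) := by
    filter_upwards [Vale.Agent.P363.R.H10.ae_ne_zero] with y hy
    have hy' : ‖y‖ ≠ 0 := norm_ne_zero_iff.2 hy
    have e1 : uu y y = 2 * ‖y‖ := by simp [uu]; ring
    have e2 : vv y y = 2 * ‖y‖ := by simp [vv]; ring
    have h3 := mul_Ssym_self hn (2 * ‖y‖)
    rw [KK, e1, e2, eval_mul, eval_X, ← h3]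
    rw [show -((‖y‖ + ‖y‖) / (n : ℝ)) = -(2 * (1 / (n : ℝ)) * ‖y‖) by ring]
    field_simp
  rw [integral_congr_ae h2, integral_const_mul, h, potS, hP]
  rw [show 2 * (1 / (n : ℝ)) * ‖x‖ = 2 * ‖x‖ / n by ring]
  have hx' : ‖x‖ ≠ 0 := norm_ne_zero_iff.2 hx
  field_simp

end

end Vale.Agent.P370.H227
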