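import Vale.Agent.P370.H227.Ring
import Vale.Agent.P370.H115.Small
import Vale.Agent.P370.H198.LatDefs

/-!
P370, block WN.  The normalised spherical ring density `wn n = wS n / wM n`, its moments, bounds, and
its integrals against products of ring orbitals.
-/

namespace Vale.Agent.P370.H227

open MeasureTheory Set Real Filter Topology
open scoped Nat
open Vale.Agent.P363.Stmt (R3)

noncomputable section

/-! ### radial moments -/

theorem integrable_pow_exp3 (p : ℕ) {c : ℝ} (hc : 0 < c) :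
    Integrable (fun x : R3 => ‖x‖ ^ p * exp (-(c * ‖x‖))) := by
  refine (integrable_fun_norm_addHaar (volume : Measure R3)
    (f := fun r => r ^ p * exp (-(c * r)))).2 ?_
  have h := integrableOn_rpow_mul_exp_neg_mul_rpow (p := 1) (s := ((p + 2 : ℕ) : ℝ)) (b := c)
    (by have : (0 : ℝ) ≤ ((p + 2 : ℕ) : ℝ) := by positivity
        linarith) one_pos hc
  refine h.congr_fun (fun r (hr : 0 < r) => ?_) measurableSet_Ioi
  simp only [finrank_euclideanSpace, Fintype.card_fin, smul_eq_mul, rpow_natCast, rpow_one, neg_mul]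
  ring

theorem integral_pow_exp3 (p : ℕ) {c : ℝ} (hc : 0 < c) :
    ∫ x : R3, ‖x‖ ^ p * exp (-(c * ‖x‖)) = 4 * π * ((p + 2)! / c ^ (p + 3)) := by
  rw [integral_radial3 (fun r => r ^ p * exp (-(c * r)))]
  have h : ∀ r : ℝ, r ^ 2 * (r ^ p * exp (-(c * r))) = r ^ (p + 2) * exp (-(c * r)) := by
    intro r; ring
  simp_rw [h]
  rw [H115.integral_pow_exp hc]

/-- the normalised spherical ring density -/
def wn (n : ℕ) (x : R3) : ℝ := wS n x / wM n

theorem wS_c (n : ℕ) (x : R3) : wS n x = ‖x‖ ^ (2 * n - 2) * exp (-(2 / n * ‖x‖)) := by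
  rw [wS, show 2 * ‖x‖ / (n : ℝ) = 2 / n * ‖x‖ by ring]

theorem wM_c {n : ℕ} (hn : n ≠ 0) : wM n = 4 * π * ((2 * n)! / (2 / n) ^ (2 * n + 1)) := by
  have hn' : (n : ℝ) ≠ 0 := by exact_mod_cast hn
  rw [wM, div_pow, show (2 : ℝ) ^ (2 * n + 1) = 4 * 2 ^ (2 * n - 1) by
    rw [show 2 * n + 1 = (2 * n - 1) + 2 by omega, pow_add]; ring]
  field_simp

theorem integral_mom {n : ℕ} (hn : n ≠ 0) (k : ℕ) :
    ∫ x : R3, ‖x‖ ^ k * wn n x = ((2 * n + k)! / (2 * n)! : ℝ) * (n / 2) ^ k := by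
  have hn' : (n : ℝ) ≠ 0 := by exact_mod_cast hn
  have hc : (0 : ℝ) < 2 / n := by positivity
  have h : ∀ x : R3, ‖x‖ ^ k * wn n x = 1 / wM n * (‖x‖ ^ (k + (2 * n - 2)) * exp (-(2 / n * ‖x‖))) := by
    intro x
    rw [wn, wS_c, pow_add]
    ring
  simp_rw [h]
  rw [integral_const_mul, integral_pow_exp3 _ hc, wM_c hn,
    show k + (2 * n - 2) + 2 = 2 * n + k by omega, show k + (2 * n - 2) + 3 = 2 * n + 1 + k by omega,
    pow_add (2 / (n : ℝ)) (2 * n + 1) k]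
  have h2 : ((2 * n)! : ℝ) ≠ 0 := by positivity
  have h3 : (2 / (n : ℝ)) ^ (2 * n + 1) ≠ 0 := by positivity
  rw [div_pow (n : ℝ) 2 k, div_pow 2 (n : ℝ) k]
  field_simp

theorem wn_nonneg (n : ℕ) (x : R3) : 0 ≤ wn n x := by
  rw [wn, wS, wM]
  positivity

theorem integrable_mom {n : ℕ} (hn : n ≠ 0) (k : ℕ) : Integrable (fun x : R3 => ‖x‖ ^ k * wn n x) := by
  have hn' : (n : ℝ) ≠ 0 := by exact_mod_cast hn
  have hc : (0 : ℝ) < 2 / n := by positivity
  refine ((integrable_pow_exp3 (k + (2 * n - 2)) hc).const_mul (1 / wM n)).congr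
    (ae_of_all _ fun x => ?_)
  simp only
  rw [wn, wS_c, pow_add]
  ring

theorem integral_wn {n : ℕ} (hn : n ≠ 0) : ∫ x : R3, wn n x = 1 := by
  have h := integral_mom hn 0
  simp only [pow_zero, one_mul, mul_one, add_zero] at h
  rw [h, div_self (by positivity)]

theorem integral_wn_sq {n : ℕ} (hn : n ≠ 0) :
    ∫ x : R3, ‖x‖ ^ 2 * wn n x = (n : ℝ) ^ 2 * (n + 1) * (2 * n + 1) / 2 := by
  rw [integral_mom hn 2, show 2 * n + 2 = 2 * n + 1 + 1 by ring, Nat.factorial_succ,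
    Nat.factorial_succ]
  have h2 : ((2 * n)! : ℝ) ≠ 0 := by positivity
  push_cast
  field_simp
  ring

/-- **Potential of the spherical ring density.** -/
theorem pot_wn {n : ℕ} (hn : n ≠ 0) {y : R3} (hy : y ≠ 0) : H198.pot (wn n) y = phiJ n ‖y‖ := by
  have h := integral_wS_div hn hy
  have hM := (wM_pos n hn).ne'
  rw [H198.pot]
  have e : ∀ x : R3, wn n x / ‖x - y‖ = 1 / wM n * (wS n x / ‖y - x‖) := by
    intro x
    rw [wn, norm_sub_rev]
    ring
  simp_rw [e]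
  rw [integral_const_mul, h]
  field_simp

/-- sup bound -/
theorem wn_le {n : ℕ} (hn : n ≠ 0) (x : R3) : wn n x ≤ 1 / (π * (n : ℝ) ^ 4 * (2 * n - 1)) := by
  have hn1 : (1 : ℝ) ≤ n := by exact_mod_cast Nat.one_le_iff_ne_zero.2 hn
  have hn' : (n : ℝ) ≠ 0 := by positivity
  have hc : (0 : ℝ) < 2 / n := by positivity
  set z := 2 / n * ‖x‖ with hz
  have hz0 : 0 ≤ z := by positivity
  have h1 : z ^ (2 * n - 2) / ((2 * n - 2)! : ℝ) ≤ exp z := by
    exact Real.pow_div_factorial_le_exp z hz0 _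
  have h6 : (0 : ℝ) < 2 * n - 1 := by linarith
  rw [wn, wS_c, ← hz, wM_c hn, div_le_div_iff₀ (by positivity) (by positivity)]
  have h2 : ‖x‖ = n / 2 * z := by rw [hz]; field_simp
  have h3 : ‖x‖ ^ (2 * n - 2) * exp (-z) ≤ (n / 2 : ℝ) ^ (2 * n - 2) * (2 * n - 2)! := by
    rw [h2, mul_pow, exp_neg, mul_assoc]
    refine mul_le_mul_of_nonneg_left ?_ (by positivity)
    rw [← div_eq_mul_inv, div_le_iff₀ (exp_pos _)]
    rw [div_le_iff₀ (by positivity)] at h1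
    linarith
  have h4 : ((2 * n)! : ℝ) = (2 * n) * (2 * n - 1) * (2 * n - 2)! := by
    obtain ⟨m, hm⟩ : ∃ m, 2 * n = m + 2 := ⟨2 * n - 2, by omega⟩
    rw [hm, Nat.add_sub_cancel, Nat.factorial_succ, Nat.factorial_succ]
    have : (2 * (n : ℝ)) = m + 2 := by exact_mod_cast hm
    push_cast
    rw [this]
    ring
  have h5 : (2 / (n : ℝ)) ^ (2 * n + 1) = (2 / n) ^ 3 * ((n / 2 : ℝ) ^ (2 * n - 2))⁻¹ := by
    rw [← inv_pow, inv_div, ← pow_add]
    congr 1
    omega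
  rw [one_mul, h4, h5]
  have h7 : (0 : ℝ) < (n / 2 : ℝ) ^ (2 * n - 2) := by positivity
  calc _ ≤ ((n / 2 : ℝ) ^ (2 * n - 2) * (2 * n - 2)!) * (π * (n : ℝ) ^ 4 * (2 * n - 1)) :=
        mul_le_mul_of_nonneg_right h3 (by positivity)
    _ = _ := by
        field_simp
        ring

/-! ### ring products against radial weights -/

open Vale.Agent.P370.H115 Vale.Agent.P363.B5

theorem hom_real {P : R3 → ℝ} {d : ℕ} (hP : ∀ (t : ℝ) (x : R3), 0 < t → P (t • x) = t ^ d * P x)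
    (g : ℝ → ℝ) : ∫ x, P x * g ‖x‖ =
      (∫ u : S2, P (u : R3) ∂sig) * ∫ r in Ioi (0 : ℝ), r ^ (d + 2) * g r := by
  have h := hom_integral (P := fun x => ((P x : ℝ) : ℂ)) (d := d)
    (fun t x ht => by rw [hP t x ht]; push_cast; ring) g
  have e1 : ∫ x : R3, ((P x : ℝ) : ℂ) * (g ‖x‖ : ℂ) = ((∫ x : R3, P x * g ‖x‖ : ℝ) : ℂ) := by
    rw [← integral_complex_ofReal]
    refine integral_congr_ae (ae_of_all _ fun x => ?_)
    simp only
    push_cast
    rfl
  have e2 : ∫ u : S2, ((P (u : R3) : ℝ) : ℂ) ∂sig = ((∫ u : S2, P (u : R3) ∂sig : ℝ) : ℂ) :=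
    integral_complex_ofReal
  rw [e1, e2, ← Complex.ofReal_mul] at h
  exact Complex.ofReal_injective h

/-- the ratio of the two radial integrals -/
def Rw (n : ℕ) : ℝ := (∫ r in Ioi (0 : ℝ), r ^ (2 * (n - 1) + 2) *
    (exp (-(2 / n * r)) * (r ^ (2 * n - 2) * exp (-(2 / n * r)) / wM n))) /
  ∫ r in Ioi (0 : ℝ), r ^ (2 * (n - 1) + 2) * exp (-(2 / n * r))

theorem integral_hom_wn {n : ℕ} (hn : n ≠ 0) {P : R3 → ℝ}
    (hP : ∀ (t : ℝ) (x : R3), 0 < t → P (t • x) = t ^ (2 * (n - 1)) * P x) :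
    ∫ x, (P x * exp (-(2 / n * ‖x‖))) * wn n x = Rw n * ∫ x, P x * exp (-(2 / n * ‖x‖)) := by
  have hc : (0 : ℝ) < 2 / n := by positivity
  have h1 := hom_real hP (fun r => exp (-(2 / n * r)) * (r ^ (2 * n - 2) * exp (-(2 / n * r)) / wM n))
  have h2 := hom_real hP (fun r => exp (-(2 / n * r)))
  have h3 : ∀ x : R3, (P x * exp (-(2 / n * ‖x‖))) * wn n x = P x * (exp (-(2 / n * ‖x‖)) *
      (‖x‖ ^ (2 * n - 2) * exp (-(2 / n * ‖x‖)) / wM n)) := by
    intro x; rw [wn, wS_c]; ring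
  simp_rw [h3]
  rw [h1, h2, Rw, integral_pow_exp hc]
  have h4 : ((2 * (n - 1) + 2)! / (2 / (n : ℝ)) ^ (2 * (n - 1) + 2 + 1) : ℝ) ≠ 0 := by positivity
  field_simp

theorem exp_sq (n : ℕ) (x : R3) : exp (-‖x‖ / n) * exp (-‖x‖ / n) = exp (-(2 / n * ‖x‖)) := by
  rw [← exp_add]
  congr 1
  ring

theorem integral_CC_wn {n : ℕ} (hn : n ≠ 0) (a b : ℝ) :
    ∫ x, (ringC n a x * ringC n b x) * wn n x = Rw n * ∫ x, ringC n a x * ringC n b x := by
  have h := integral_hom_wn hn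
    (P := fun x => cn n ^ 2 * ((zet a x ^ (n - 1)).re * (zet b x ^ (n - 1)).re)) (by
      intro t x ht
      rw [zet_smul, zet_smul, mul_pow, mul_pow, ← Complex.ofReal_pow, Complex.re_ofReal_mul,
        Complex.re_ofReal_mul, pow_mul' t 2 (n - 1)]
      ring)
  have e : ∀ x : R3, cn n ^ 2 * ((zet a x ^ (n - 1)).re * (zet b x ^ (n - 1)).re) *
      exp (-(2 / n * ‖x‖)) = ringC n a x * ringC n b x := by
    intro x
    rw [ringC, ringC, ← exp_sq]
    ring
  simpa only [e] using h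

theorem integral_SS_wn {n : ℕ} (hn : n ≠ 0) (a b : ℝ) :
    ∫ x, (ringS n a x * ringS n b x) * wn n x = Rw n * ∫ x, ringS n a x * ringS n b x := by
  have h := integral_hom_wn hn
    (P := fun x => cn n ^ 2 * ((zet a x ^ (n - 1)).im * (zet b x ^ (n - 1)).im)) (by
      intro t x ht
      rw [zet_smul, zet_smul, mul_pow, mul_pow, ← Complex.ofReal_pow, Complex.im_ofReal_mul,
        Complex.im_ofReal_mul, pow_mul' t 2 (n - 1)]
      ring)
  have e : ∀ x : R3, cn n ^ 2 * ((zet a x ^ (n - 1)).im * (zet b x ^ (n - 1)).im) *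
      exp (-(2 / n * ‖x‖)) = ringS n a x * ringS n b x := by
    intro x
    rw [ringS, ringS, ← exp_sq]
    ring
  simpa only [e] using h

end

end Vale.Agent.P370.H227
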