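import Vale.Agent.P370.H227.WN
import Vale.Agent.P370.H993.ShellLap
import Vale.Agent.P370.H617.Ops

/-!
P370, block WN, part 2.  `IsLap` and `Bnd` (of `H198/LatDefs.lean`) for the spherical ring density.
-/

namespace Vale.Agent.P370.H227

open MeasureTheory Set Real Filter Topology
open scoped Nat
open Vale.Agent.P363.Stmt (R3)
open Vale.Agent.P363.H849 (Poly ev wv Kop eul lap rsq G hA hB ev_add ev_sub ev_mul ev_smul ev_sum ev_X)
open Vale.Agent.P370.H617 (eul_mul lap_mul pderiv_rsq eul_rsq lap_rsq)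

noncomputable section

theorem eul_rsq_pow (m : ℕ) : eul (rsq ^ m) = (2 * m : ℝ) • rsq ^ m := by
  induction m with
  | zero => simp [eul]
  | succ m ih =>
    rw [pow_succ, eul_mul, ih, eul_rsq]
    push_cast
    rw [show (2 * ((m : ℝ) + 1)) = 2 * m + 2 by ring, add_smul, smul_mul_assoc]
    have : rsq ^ m * (2 * rsq) = (2 : ℝ) • (rsq ^ m * rsq) := by
      rw [two_smul]; ring
    rw [this]

theorem lap_rsq_pow (m : ℕ) : lap (rsq ^ (m + 1)) =
    ((2 * (m + 1)) * (2 * (m + 1) + 1) : ℝ) • rsq ^ m := by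
  induction m with
  | zero =>
    rw [pow_one, lap_rsq, pow_zero]
    rw [MvPolynomial.smul_eq_C_mul]
    norm_num
    rw [map_ofNat]
  | succ m ih =>
    rw [pow_succ' rsq (m + 1), lap_mul, ih, lap_rsq]
    have h : ∑ k : Fin 3, MvPolynomial.pderiv k rsq * MvPolynomial.pderiv k (rsq ^ (m + 1)) =
        2 * eul (rsq ^ (m + 1)) := by
      rw [eul, Finset.mul_sum]
      refine Finset.sum_congr rfl fun k _ => ?_
      rw [pderiv_rsq]
      ring
    rw [h, eul_rsq_pow]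
    simp only [MvPolynomial.smul_eq_C_mul]
    push_cast
    have h6 : (6 : Poly) = MvPolynomial.C 6 := by rw [map_ofNat]
    have h2 : (2 : Poly) = MvPolynomial.C 2 := by rw [map_ofNat]
    rw [h6, h2]
    have e : ∀ (a b c d : ℝ), a + b * (b * c) + d = (a + b * (b * c) + d) := fun _ _ _ _ => rfl
    calc _ = MvPolynomial.C (6 + 2 * (2 * (2 * ((m : ℝ) + 1))) +
          (2 * (m + 1) * (2 * (m + 1) + 1))) * rsq ^ (m + 1) := by
            simp only [map_add, map_mul]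
            ring
      _ = _ := by
            congr 2
            ring

/-- the pair of `wn n` -/
def wP (n : ℕ) : Poly × Poly := ((1 / wM n) • rsq ^ (n - 1), 0)

theorem ev_rsq (x : R3) : ev rsq x = ‖x‖ ^ 2 := by
  rw [Vale.Agent.P363.H849.norm_sq_R3, rsq, ev_sum]
  simp only [ev_mul, ev_X]
  refine Finset.sum_congr rfl fun k _ => ?_
  ring

theorem ev_pow (p : Poly) (m : ℕ) (x : R3) : ev (p ^ m) x = ev p x ^ m := by simp [ev]

theorem wn_eq_wv (n : ℕ) (x : R3) : wn n x = wv (2 / n) (wP n) x := by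
  rw [wv, wP, G, G, hA, hB, ev_smul, ev_pow, ev_rsq, wn, wS_c,
    ← pow_mul, show 2 * (n - 1) = 2 * n - 2 by omega]
  simp [ev]
  ring

/-- the Laplacian of `wn` -/
def wL (n : ℕ) (x : R3) : ℝ :=
  (((2 * n - 2) * (2 * n - 1)) * (‖x‖ ^ (2 * n - 4) * exp (-(2 / n * ‖x‖))) -
    (2 / n) * (4 * n - 2) * (‖x‖ ^ (2 * n - 3) * exp (-(2 / n * ‖x‖))) +
    (2 / n) ^ 2 * (‖x‖ ^ (2 * n - 2) * exp (-(2 / n * ‖x‖)))) / wM n

theorem isLap_wn {n : ℕ} (hn : 2 ≤ n) : H198.IsLap (wn n) (wL n) := by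
  have hn0 : n ≠ 0 := by omega
  have hκ : (0 : ℝ) < 2 / n := by positivity
  have h := (H993.wv_cusp hκ (wP n))
  have e : wn n = wv (2 / n) (wP n) := funext (wn_eq_wv n)
  rw [e]
  refine h.isLap fun x hx => ?_
  rw [H993.sum_ws _ _ hx, ← wn_eq_wv n]
  have hx0 : ‖x‖ ≠ 0 := norm_ne_zero_iff.2 hx
  obtain ⟨m, rfl⟩ : ∃ m, n = m + 2 := ⟨n - 2, by omega⟩
  have hK : Kop (2 / ((m + 2 : ℕ) : ℝ)) (wP (m + 2)) =
      (((2 / ((m + 2 : ℕ) : ℝ)) * (2 * ((m : ℝ) + 1) + 1) * (1 / wM (m + 2))) • rsq ^ (m + 1),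
        (-((m + 1) * (2 * (m + 1) + 1) : ℝ) * (1 / wM (m + 2))) • rsq ^ m) := by
    have e1 : wP (m + 2) = ((1 / wM (m + 2)) • rsq ^ (m + 1), 0) := by
      rw [wP, show m + 2 - 1 = m + 1 by omega]
    have e2 : ∀ (c : ℝ) (p : Poly), eul (c • p) = c • eul p := by
      intro c p
      simp only [eul, Derivation.map_smul, Finset.smul_sum, mul_smul_comm]
    have e3 : ∀ (c : ℝ) (p : Poly), lap (c • p) = c • lap p := by
      intro c p
      simp only [lap, Derivation.map_smul, Finset.smul_sum]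
    have e4 : eul (0 : Poly) = 0 := by simp [eul]
    have e5 : lap (0 : Poly) = 0 := by simp [lap]
    rw [e1, Kop, e2, e3, eul_rsq_pow, lap_rsq_pow, e4, e5]
    push_cast
    refine Prod.ext ?_ ?_
    · simp only [add_zero, mul_zero, smul_zero, sub_zero]
      simp only [← smul_assoc, smul_eq_mul, ← add_smul]
      congr 1
      ring
    · simp only [add_zero, smul_zero]
      simp only [← smul_assoc, smul_eq_mul, ← neg_smul]
      congr 1
      ring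
  rw [hK, wv, G, G, hA, hB, ev_smul, ev_smul, ev_pow, ev_pow, ev_rsq, wL, wn, wS_c,
    show 2 * (m + 2) - 2 = 2 * m + 2 by omega, show 2 * (m + 2) - 3 = 2 * m + 1 by omega,
    show 2 * (m + 2) - 4 = 2 * m by omega, ← pow_mul, ← pow_mul]
  have hM := (wM_pos (m + 2) hn0).ne'
  push_cast
  rw [show 2 * (m + 1) = 2 * m + 2 by ring, pow_succ ‖x‖ (2 * m + 1), pow_succ ‖x‖ (2 * m)]
  have : ((m : ℝ) + 2) ≠ 0 := by positivity
  simp only [neg_mul]
  field_simp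
  ring

/-! ### Norms -/

theorem integral_pw {n : ℕ} (hn : n ≠ 0) (p : ℕ) :
    ∫ x : R3, (‖x‖ ^ p * exp (-(2 / n * ‖x‖))) / wM n =
      ((p + 2)! / (2 * n)! : ℝ) * ((2 / n) ^ (2 * n + 1) / (2 / n) ^ (p + 3)) := by
  have hc : (0 : ℝ) < 2 / n := by positivity
  have hn' : (n : ℝ) ≠ 0 := by exact_mod_cast hn
  simp_rw [div_eq_mul_inv _ (wM n)]
  rw [integral_mul_const, integral_pow_exp3 p hc, wM_c hn]
  field_simp

theorem int_abs_wL {n : ℕ} (hn : 2 ≤ n) : ∫ x, |wL n x| ≤ 16 / (n : ℝ) ^ 2 := by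
  have hn0 : n ≠ 0 := by omega
  have hc : (0 : ℝ) < 2 / n := by positivity
  have hn1 : (2 : ℝ) ≤ n := by exact_mod_cast hn
  have hM := wM_pos n hn0
  have i : ∀ p : ℕ, Integrable (fun x : R3 => (‖x‖ ^ p * exp (-(2 / n * ‖x‖))) / wM n) :=
    fun p => (integrable_pow_exp3 p hc).div_const _
  set a : ℝ := (2 * n - 2) * (2 * n - 1) with ha
  set b : ℝ := (2 / n) * (4 * n - 2) with hb
  set c : ℝ := (2 / (n : ℝ)) ^ 2 with hc'
  have ha0 : 0 ≤ a := mul_nonneg (by linarith) (by linarith)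
  have hb0 : 0 ≤ b := mul_nonneg hc.le (by linarith)
  have hc0 : 0 ≤ c := by positivity
  have h1 : ∀ x : R3, |wL n x| ≤ a * ((‖x‖ ^ (2 * n - 4) * exp (-(2 / n * ‖x‖))) / wM n) +
      b * ((‖x‖ ^ (2 * n - 3) * exp (-(2 / n * ‖x‖))) / wM n) +
      c * ((‖x‖ ^ (2 * n - 2) * exp (-(2 / n * ‖x‖))) / wM n) := by
    intro x
    have e : wL n x = a * ((‖x‖ ^ (2 * n - 4) * exp (-(2 / n * ‖x‖))) / wM n) -
      b * ((‖x‖ ^ (2 * n - 3) * exp (-(2 / n * ‖x‖))) / wM n) +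
      c * ((‖x‖ ^ (2 * n - 2) * exp (-(2 / n * ‖x‖))) / wM n) := by
      rw [wL, ha, hb, hc']
      ring
    rw [e]
    have p1 : 0 ≤ (‖x‖ ^ (2 * n - 4) * exp (-(2 / n * ‖x‖))) / wM n := by positivity
    have p2 : 0 ≤ (‖x‖ ^ (2 * n - 3) * exp (-(2 / n * ‖x‖))) / wM n := by positivity
    have p3 : 0 ≤ (‖x‖ ^ (2 * n - 2) * exp (-(2 / n * ‖x‖))) / wM n := by positivity
    have q1 := mul_nonneg ha0 p1
    have q2 := mul_nonneg hb0 p2
    have q3 := mul_nonneg hc0 p3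
    rw [abs_le]
    constructor <;> linarith
  have h2 : ∫ x, |wL n x| ≤ ∫ x : R3, (a * ((‖x‖ ^ (2 * n - 4) * exp (-(2 / n * ‖x‖))) / wM n) +
      b * ((‖x‖ ^ (2 * n - 3) * exp (-(2 / n * ‖x‖))) / wM n) +
      c * ((‖x‖ ^ (2 * n - 2) * exp (-(2 / n * ‖x‖))) / wM n)) :=
    integral_mono_of_nonneg (ae_of_all _ fun x => abs_nonneg _)
      ((((i _).const_mul a).add ((i _).const_mul b)).add ((i _).const_mul c)) (ae_of_all _ h1)
  refine h2.trans ?_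
  have i1 : Integrable (fun x : R3 => a * ((‖x‖ ^ (2 * n - 4) * exp (-(2 / n * ‖x‖))) / wM n)) :=
    (i _).const_mul a
  have i2 : Integrable (fun x : R3 => b * ((‖x‖ ^ (2 * n - 3) * exp (-(2 / n * ‖x‖))) / wM n)) :=
    (i _).const_mul b
  have i3 : Integrable (fun x : R3 => c * ((‖x‖ ^ (2 * n - 2) * exp (-(2 / n * ‖x‖))) / wM n)) :=
    (i _).const_mul c
  have i12 : Integrable (fun x : R3 => a * ((‖x‖ ^ (2 * n - 4) * exp (-(2 / n * ‖x‖))) / wM n) +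
      b * ((‖x‖ ^ (2 * n - 3) * exp (-(2 / n * ‖x‖))) / wM n)) := i1.add i2
  rw [integral_add i12 i3, integral_add i1 i2, integral_const_mul, integral_const_mul,
    integral_const_mul, integral_pw hn0, integral_pw hn0, integral_pw hn0]
  obtain ⟨m, rfl⟩ : ∃ m, n = m + 2 := ⟨n - 2, by omega⟩
  have f1 : ((2 * (m + 2))! : ℝ) = (2 * m + 4) * (2 * m + 3) * (2 * m + 2)! := by
    rw [show 2 * (m + 2) = 2 * m + 2 + 1 + 1 by ring, Nat.factorial_succ, Nat.factorial_succ]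
    push_cast
    ring
  have f2 : ((2 * m + 3)! : ℝ) = (2 * m + 3) * (2 * m + 2)! := by
    rw [Nat.factorial_succ]
    push_cast
    ring
  have k0 : (2 / ((m + 2 : ℕ) : ℝ)) ≠ 0 := hc.ne'
  have k1 : (2 / ((m + 2 : ℕ) : ℝ)) ^ (2 * (m + 2) + 1) / (2 / ((m + 2 : ℕ) : ℝ)) ^ (2 * m + 3) =
      (2 / ((m + 2 : ℕ) : ℝ)) ^ 2 := by
    rw [show 2 * (m + 2) + 1 = (2 * m + 3) + 2 by ring, pow_add _ (2 * m + 3) 2]
    field_simp
  have k2 : (2 / ((m + 2 : ℕ) : ℝ)) ^ (2 * (m + 2) + 1) / (2 / ((m + 2 : ℕ) : ℝ)) ^ (2 * m + 4) =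
      (2 / ((m + 2 : ℕ) : ℝ)) := by
    rw [show 2 * (m + 2) + 1 = (2 * m + 4) + 1 by ring, pow_add _ (2 * m + 4) 1]
    field_simp
  have k3 : (2 / ((m + 2 : ℕ) : ℝ)) ^ (2 * (m + 2) + 1) / (2 / ((m + 2 : ℕ) : ℝ)) ^ (2 * m + 5) =
      1 := by
    rw [show 2 * (m + 2) + 1 = (2 * m + 5) by ring]
    exact div_self (pow_ne_zero _ k0)
  rw [show 2 * (m + 2) - 4 = 2 * m by omega, show 2 * (m + 2) - 3 = 2 * m + 1 by omega,
    show 2 * (m + 2) - 2 = 2 * m + 2 by omega, show 2 * m + 1 + 2 = 2 * m + 3 by ring,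
    show 2 * m + 1 + 3 = 2 * m + 4 by ring, show 2 * m + 2 + 3 = 2 * m + 5 by ring, k1, k2, k3,
    show 2 * m + 2 + 2 = 2 * (m + 2) by ring, f1, f2, ha, hb, hc']
  have f0 : ((2 * m + 2)! : ℝ) ≠ 0 := by positivity
  push_cast
  have hm : ((m : ℝ) + 2) ≠ 0 := by positivity
  have hm0 : (0 : ℝ) ≤ m := by positivity
  have e1 : (2 * ((m : ℝ) + 2) - 2) * (2 * ((m : ℝ) + 2) - 1) *
      ((2 * m + 2)! / ((2 * m + 4) * (2 * m + 3) * (2 * m + 2)!) * (2 / ((m : ℝ) + 2)) ^ 2) =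
      4 * (m + 1) / (m + 2) ^ 3 := by
    field_simp
    ring
  have e2 : 2 / ((m : ℝ) + 2) * (4 * ((m : ℝ) + 2) - 2) *
      ((2 * m + 3) * (2 * m + 2)! / ((2 * m + 4) * (2 * m + 3) * (2 * m + 2)!) * (2 / ((m : ℝ) + 2))) =
      4 * (2 * m + 3) / (m + 2) ^ 3 := by
    field_simp
    ring
  rw [e1, e2, div_self (by positivity)]
  rw [div_pow]
  have e3 : (2 : ℝ) ^ 2 / ((m : ℝ) + 2) ^ 2 * (1 * 1) = 4 * (m + 2) / (m + 2) ^ 3 := by
    field_simp
    ring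
  rw [e3, ← add_div, ← add_div, div_le_div_iff₀ (by positivity) (by positivity)]
  have : 0 ≤ ((m : ℝ) + 2) ^ 2 := by positivity
  nlinarith

theorem wn_le_one {n : ℕ} (hn : n ≠ 0) (x : R3) : wn n x ≤ 1 := by
  have hn1 : (1 : ℝ) ≤ n := by exact_mod_cast Nat.one_le_iff_ne_zero.2 hn
  refine (wn_le hn x).trans ?_
  have h1 : (1 : ℝ) ≤ (n : ℝ) ^ 4 := one_le_pow₀ hn1
  have h2 : (1 : ℝ) ≤ 2 * n - 1 := by linarith
  have h3 : (1 : ℝ) ≤ π := by linarith [pi_gt_three]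
  have h4 : (1 : ℝ) ≤ π * (n : ℝ) ^ 4 * (2 * n - 1) := by
    have := one_le_mul_of_one_le_of_one_le h3 h1
    exact one_le_mul_of_one_le_of_one_le this h2
  rw [div_le_one (by linarith)]
  exact h4

/-- **`Bnd` for the spherical ring density.** -/
theorem bnd_wn {n : ℕ} (hn : 2 ≤ n) : H198.Bnd (wn n) (wL n) (17 * (n : ℝ) ^ 8) := by
  have hn0 : n ≠ 0 := by omega
  have hn1 : (2 : ℝ) ≤ n := by exact_mod_cast hn
  have h8 : (1 : ℝ) ≤ (n : ℝ) ^ 8 := one_le_pow₀ (by linarith)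
  refine ⟨fun x => ?_, ?_, ?_⟩
  · rw [abs_of_nonneg (wn_nonneg n x)]
    linarith [wn_le_one hn0 x]
  · have e : ∀ x : R3, (1 + ‖x‖ ^ 4) * |wn n x| = ‖x‖ ^ 0 * wn n x + ‖x‖ ^ 4 * wn n x := by
      intro x
      rw [abs_of_nonneg (wn_nonneg n x)]
      ring
    simp_rw [e]
    rw [integral_add (integrable_mom hn0 0) (integrable_mom hn0 4), integral_mom hn0, integral_mom hn0,
      show 2 * n + 4 = 2 * n + 1 + 1 + 1 + 1 by ring, Nat.factorial_succ, Nat.factorial_succ,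
      Nat.factorial_succ, Nat.factorial_succ]
    have f0 : ((2 * n)! : ℝ) ≠ 0 := by positivity
    push_cast
    rw [add_zero, div_self f0, pow_zero, mul_one]
    have e2 : ((2 * (n : ℝ) + 3 + 1) * ((2 * n + 2 + 1) * ((2 * n + 1 + 1) *
        ((2 * n + 1) * (2 * n)!))) / (2 * n)! : ℝ) = (2 * n + 4) * (2 * n + 3) * (2 * n + 2) *
        (2 * n + 1) := by
      field_simp
      ring
    rw [e2]
    have h1 : (2 * (n : ℝ) + 4) * (2 * n + 3) * (2 * n + 2) * (2 * n + 1) ≤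
        (4 * n) * (4 * n) * (4 * n) * (4 * n) := by
      gcongr <;> linarith
    calc 1 + (2 * (n : ℝ) + 4) * (2 * n + 3) * (2 * n + 2) * (2 * n + 1) * (n / 2) ^ 4
        ≤ 1 + (4 * n) * (4 * n) * (4 * n) * (4 * n) * (n / 2) ^ 4 := by gcongr
      _ = 1 + 16 * (n : ℝ) ^ 8 := by ring
      _ ≤ _ := by linarith
  · refine (int_abs_wL hn).trans ?_
    have : 16 / (n : ℝ) ^ 2 ≤ 16 := by
      rw [div_le_iff₀ (by positivity)]
      nlinarith
    linarith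

end

end Vale.Agent.P370.H227
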