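import Vale.Agent.P370.H227.WNLap
import Vale.Agent.P370.H305.Iface

/-!
P370, block WN, part 3.  The designed potential `uD` against the spherical ring density.
-/

namespace Vale.Agent.P370.H227

open MeasureTheory Set Real Filter Topology
open Vale.Agent.P363.Stmt (R3)
open Vale.Agent.P370.H115 Vale.Agent.P363.R.H10

noncomputable section

theorem continuous_wn (n : ℕ) : Continuous (wn n) := by
  unfold wn wS
  fun_prop

theorem integrable_mul_wn {n : ℕ} (hn : n ≠ 0) {f : R3 → ℝ} (hf : Nice f) :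
    Integrable (fun x => f x * wn n x) := by
  refine hf.mul_bdd (continuous_wn n).measurable 1 (fun x => ?_)
  rw [abs_of_nonneg (wn_nonneg n x)]
  exact wn_le_one hn x

theorem norm_CC {n : ℕ} (hn : 2 ≤ n) (a : ℝ) : ∫ x, ringC n a x * ringC n a x = 1 := by
  rw [(overlap n a a hn).1, sub_self, cos_zero]
  have : n - 1 ≠ 0 := by omega
  norm_num [this]

theorem norm_SS {n : ℕ} (hn : 2 ≤ n) (a : ℝ) : ∫ x, ringS n a x * ringS n a x = 1 := by
  rw [(overlap n a a hn).2.1, sub_self, cos_zero]
  have : n - 1 ≠ 0 := by omega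
  norm_num [this]

theorem Rw_nonneg {n : ℕ} (hn : 2 ≤ n) : 0 ≤ Rw n := by
  have h := integral_CC_wn (n := n) (by omega) 0 0
  rw [norm_CC hn, mul_one] at h
  rw [← h]
  exact integral_nonneg fun x => mul_nonneg (mul_self_nonneg _) (wn_nonneg n x)

theorem Rw_le {n : ℕ} (hn : 2 ≤ n) : Rw n ≤ 1 := by
  have hn0 : n ≠ 0 := by omega
  have h := integral_CC_wn hn0 0 0
  have h1 := norm_CC hn 0
  rw [h1, mul_one] at h
  rw [← h, ← h1]
  have hN : Nice (fun x => ringC n 0 x * ringC n 0 x) :=
    nice_mul (nice_ringC (by omega) 0) (nice_ringC (by omega) 0)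
  refine integral_mono (integrable_mul_wn hn0 hN) hN.integrable fun x => ?_
  exact mul_le_of_le_one_right (mul_self_nonneg _) (wn_le_one hn0 x)

theorem overlap_small {n m i j : ℕ} (hn : 2 ≤ n) (hm : 2 ≤ m) (hi : i < m) (hj : j < m)
    (hij : i ≠ j) :
    |∫ x, rC n m i x * rC n m j x| ≤ 2 * exp (-((n - 1) / (m : ℝ) ^ 2)) := by
  have hc := cos_bound hm hi hj hij
  rw [abs_le] at hc
  have hm2 : (0 : ℝ) < (m : ℝ) ^ 2 := by positivity
  have hm1 : 1 / (m : ℝ) ^ 2 ≤ 1 := by
    rw [div_le_one hm2]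
    have : (1 : ℝ) ≤ m := by exact_mod_cast (by omega : 1 ≤ m)
    exact one_le_pow₀ this
  have e2 : 2 / (m : ℝ) ^ 2 = 2 * (1 / (m : ℝ) ^ 2) := by ring
  rw [e2] at hc
  have hcos := abs_le.1 (abs_cos_le_one (rang m i - rang m j))
  have key : ∀ s : ℝ, 0 ≤ s → s ≤ 1 - 1 / (m : ℝ) ^ 2 →
      s ^ (n - 1) ≤ exp (-((n - 1) / (m : ℝ) ^ 2)) := by
    intro s hs0 hs
    have h1 : s ≤ exp (-(1 / (m : ℝ) ^ 2)) := by
      have := add_one_le_exp (-(1 / (m : ℝ) ^ 2))
      linarith
    calc s ^ (n - 1) ≤ exp (-(1 / (m : ℝ) ^ 2)) ^ (n - 1) := pow_le_pow_left₀ hs0 h1 _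
      _ = _ := by
          rw [← exp_nat_mul, Nat.cast_sub (by omega)]
          congr 1
          push_cast
          ring
  have h := (overlap n (rang m i) (rang m j) hn).1
  rw [show (∫ x, rC n m i x * rC n m j x) = ∫ x, ringC n (rang m i) x * ringC n (rang m j) x from rfl,
    h]
  have a1 := key ((1 + cos (rang m i - rang m j)) / 2) (by linarith [hcos.1]) (by linarith [hc.2])
  have a2 := key ((1 - cos (rang m i - rang m j)) / 2) (by linarith [hcos.2]) (by linarith [hc.1])
  have b1 : 0 ≤ ((1 + cos (rang m i - rang m j)) / 2) ^ (n - 1) :=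
    pow_nonneg (by linarith [hcos.1]) _
  have b2 : 0 ≤ ((1 - cos (rang m i - rang m j)) / 2) ^ (n - 1) :=
    pow_nonneg (by linarith [hcos.2]) _
  rw [abs_of_nonneg (by linarith)]
  linarith

/-- **The designed potential has (almost) zero mean against the spherical ring density.** -/
theorem int_uD_wn {n m : ℕ} (hn : 2 ≤ n) (hm : 2 ≤ m) (σ : ℝ) (τ : ℕ → ℕ → ℝ) :
    |∫ x, H305.uD n m σ τ x * wn n x| ≤
      (∑ i ∈ Finset.range m, ∑ j ∈ Finset.range m, if i < j then |τ i j| else 0) *
        (2 * exp (-((n - 1) / (m : ℝ) ^ 2))) := by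
  have hn0 : n ≠ 0 := by omega
  have hn1 : 1 ≤ n := by omega
  have nC : ∀ i j, Nice (fun x => rC n m i x * rC n m j x) := fun i j =>
    nice_mul (nice_ringC hn1 _) (nice_ringC hn1 _)
  have nS : ∀ i j, Nice (fun x => rS n m i x * rS n m j x) := fun i j =>
    nice_mul (nice_ringS hn1 _) (nice_ringS hn1 _)
  have iC := fun i j => integrable_mul_wn hn0 (nC i j)
  have iS := fun i j => integrable_mul_wn hn0 (nS i j)
  have e : ∀ x, H305.uD n m σ τ x * wn n x =
      -(σ * ∑ i ∈ Finset.range m, ((rC n m i x * rC n m i x) * wn n x -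
        (rS n m i x * rS n m i x) * wn n x)) -
      ∑ i ∈ Finset.range m, ∑ j ∈ Finset.range m,
        (if i < j then τ i j else 0) * ((rC n m i x * rC n m j x) * wn n x) := by
    intro x
    rw [H305.uD, sub_mul, neg_mul, mul_assoc, Finset.sum_mul, Finset.sum_mul]
    congr 1
    · congr 2
      refine Finset.sum_congr rfl fun i _ => ?_
      ring
    · refine Finset.sum_congr rfl fun i _ => ?_
      rw [Finset.sum_mul]
      refine Finset.sum_congr rfl fun j _ => ?_
      split_ifs <;> ring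
  simp_rw [e]
  have iCS : ∀ i, Integrable (fun x => (rC n m i x * rC n m i x) * wn n x -
        (rS n m i x * rS n m i x) * wn n x) := fun i => (iC i i).sub (iS i i)
  have I1 : Integrable (fun x => -(σ * ∑ i ∈ Finset.range m, ((rC n m i x * rC n m i x) * wn n x -
        (rS n m i x * rS n m i x) * wn n x))) :=
    ((integrable_finsetSum _ fun i _ => iCS i).const_mul σ).neg
  have I2 : Integrable (fun x => ∑ i ∈ Finset.range m, ∑ j ∈ Finset.range m,
        (if i < j then τ i j else 0) * ((rC n m i x * rC n m j x) * wn n x)) :=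
    integrable_finsetSum _ fun i _ => integrable_finsetSum _ fun j _ => (iC i j).const_mul _
  rw [integral_sub I1 I2, integral_neg, integral_const_mul,
    integral_finsetSum _ fun i _ => iCS i]
  have z : ∑ i ∈ Finset.range m, ∫ x, ((rC n m i x * rC n m i x) * wn n x -
        (rS n m i x * rS n m i x) * wn n x) = 0 := by
    refine Finset.sum_eq_zero fun i _ => ?_
    rw [integral_sub (iC i i) (iS i i)]
    have h1 := integral_CC_wn hn0 (rang m i) (rang m i)
    have h2 := integral_SS_wn hn0 (rang m i) (rang m i)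
    rw [norm_CC hn] at h1
    rw [norm_SS hn] at h2
    simp only [rC, rS]
    rw [h1, h2, sub_self]
  rw [z, mul_zero, neg_zero, zero_sub, abs_neg,
    integral_finsetSum _ fun i _ => integrable_finsetSum _ fun j _ => (iC i j).const_mul _]
  refine (Finset.abs_sum_le_sum_abs _ _).trans ?_
  rw [Finset.sum_mul]
  refine Finset.sum_le_sum fun i hi => ?_
  rw [integral_finsetSum _ fun j _ => (iC i j).const_mul _]
  refine (Finset.abs_sum_le_sum_abs _ _).trans ?_
  rw [Finset.sum_mul]
  refine Finset.sum_le_sum fun j hj => ?_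
  rw [integral_const_mul, abs_mul]
  split_ifs with hij
  · have h1 := integral_CC_wn hn0 (rang m i) (rang m j)
    have h2 := overlap_small hn hm (Finset.mem_range.1 hi) (Finset.mem_range.1 hj) hij.ne
    simp only [rC] at h2 ⊢
    rw [h1, abs_mul, abs_of_nonneg (Rw_nonneg hn)]
    refine mul_le_mul_of_nonneg_left ?_ (abs_nonneg _)
    exact (mul_le_of_le_one_left (abs_nonneg _) (Rw_le hn)).trans h2
  · simp

end

end Vale.Agent.P370.H227
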