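import Vale.Agent.P370.H227.WNu
import Vale.Agent.P370.H305.Blocks

/-!
P370, block WN: the statement `H305.WnStmt phiJ`.
-/

namespace Vale.Agent.P370.H227

open MeasureTheory Set Real Filter Topology
open scoped Nat
open Vale.Agent.P363.Stmt (R3)
open Vale.Agent.P370.H115 Vale.Agent.P363.R.H10

noncomputable section

theorem wn_eq {n : ℕ} (hn : n ≠ 0) : H305.wn n = wn n := by
  have hn' : (n : ℝ) ≠ 0 := by exact_mod_cast hn
  funext x
  rw [H305.wn, wn, wS, wM, show 2 * (n - 1) = 2 * n - 2 by omega]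
  congr 1
  rw [div_pow, show (2 : ℝ) ^ (2 * n + 1) = 4 * 2 ^ (2 * n - 1) by
    rw [show 2 * n + 1 = (2 * n - 1) + 2 by omega, pow_add]; ring]
  field_simp

/-- **Block WN.** -/
theorem wnStmt : H305.WnStmt phiJ := by
  refine ⟨13, fun n hn => ?_⟩
  have hn0 : n ≠ 0 := by omega
  have hn1 : (2 : ℝ) ≤ n := by exact_mod_cast hn
  rw [wn_eq hn0]
  have h13 : 17 * (n : ℝ) ^ 8 ≤ (n : ℝ) ^ 13 := by
    have h5 : (17 : ℝ) ≤ (n : ℝ) ^ 5 := by
      have : (2 : ℝ) ^ 5 ≤ (n : ℝ) ^ 5 := by gcongr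
      linarith
    calc 17 * (n : ℝ) ^ 8 ≤ (n : ℝ) ^ 5 * (n : ℝ) ^ 8 := by gcongr
      _ = _ := by ring
  refine ⟨fun y hy => pot_wn hn0 hy, integral_wn hn0, integral_wn_sq hn0,
    ⟨wL n, isLap_wn hn, ?_⟩, fun a => ?_, fun a b => ?_⟩
  · obtain ⟨h1, h2, h3⟩ := bnd_wn hn
    exact ⟨fun x => (h1 x).trans h13, h2.trans h13, h3.trans h13⟩
  · have nC : Nice (fun x => ringC n a x * ringC n a x) :=
      nice_mul (nice_ringC (by omega) _) (nice_ringC (by omega) _)
    have nS : Nice (fun x => ringS n a x * ringS n a x) :=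
      nice_mul (nice_ringS (by omega) _) (nice_ringS (by omega) _)
    have e : ∀ x, (ringC n a x ^ 2 - ringS n a x ^ 2) * wn n x =
        (ringC n a x * ringC n a x) * wn n x - (ringS n a x * ringS n a x) * wn n x := by
      intro x; ring
    simp_rw [e]
    rw [integral_sub (integrable_mul_wn hn0 nC) (integrable_mul_wn hn0 nS), integral_CC_wn hn0,
      integral_SS_wn hn0, norm_CC hn, norm_SS hn, sub_self]
  · rw [integral_CC_wn hn0, abs_mul, abs_of_nonneg (Rw_nonneg hn)]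
    refine mul_le_mul_of_nonneg_right ?_ (abs_nonneg _)
    exact (Rw_le hn).trans (one_le_pow₀ (by linarith))

end

end Vale.Agent.P370.H227
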